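import Vale.Agent.P208.Neg.Subst

/-! # P208: covering chains of ancestors and whole blocks -/

open Finset
open scoped RealInnerProductSpace

namespace Vale.Agent.P208.Neg

variable {H : Type} [NormedAddCommGroup H] [InnerProductSpace ℝ H]

namespace Params

variable (p : Params H)

/-- Separation of cables in the same slot. -/
def Sep : Prop :=
  ∀ e e' : p.Cab, e ≠ e' → p.slot e = p.slot e' → ∀ s : ℝ, 0 ≤ s → s ≤ 1 →
    p.ν / (p.T : ℝ) * min s (1 - s) ≤ ‖qpt p.offA p.offB e s - qpt p.offA p.offB e' s‖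

theorem tube_params {L Λ : ℕ} (hsep : p.Sep) (E : Finset p.Cab) (P : p.Cab → Set H) (Z : Set H)
    (hZ : ∀ x ∈ Z, ∃ j ∈ E, x ∈ P j)
    (hP : ∀ j ∈ E, ∀ x ∈ P j, ∃ x' : H, p.InCone x' ∧ x = p.place j x')
    (hslice : ∀ (i : ℕ) (s : ℝ), 0 ≤ s → s ≤ 1 →
      Cov {v : H | ∃ j ∈ E, p.slot j = i ∧ v = qpt p.offA p.offB j s} L)
    (hpiece : ∀ j ∈ E, ICov (P j) Λ) (hΛ : tubeBound L ≤ Λ) : ICov Z Λ := by
  have hC : 1 ≤ p.C := le_trans (by norm_num) p.hC1
  have hμ8 := p.μ_le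
  have hT : (1 : ℝ) ≤ p.T := by exact_mod_cast (Nat.succ_pos _ : 0 < p.T)
  refine tube (κ := p.ν / (p.T : ℝ)) p.Fr.he (slot := p.slot) (A := p.offA) (B := p.offB)
    hC p.μ_pos (by linarith) p.hε (div_pos p.hν (by linarith))
    (div_le_one_of_le₀ (p.hν1.trans hT) (by linarith)) p.hεμ p.hεκ p.hμC
    (fun j _ => (p.norm_offs _).trans (by linarith)) (fun j _ => (p.norm_offs _).trans (by linarith))
    hZ ?_ (fun j _ j' _ => hsep j j') hslice hpiece hΛ
  intro j hj x hx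
  obtain ⟨x', hx', rfl⟩ := hP j hj x hx
  exact ⟨_, hx'.1, hx'.2.1, p.place_inner j x', p.place_tube j hx'⟩

/-- Axis cable. -/
def IsAxis (e : p.Cab) : Prop := ∃ i, e = .inl i

/-- Cable along the window of `y`. -/
def IsStrand (y : p.L) (e : p.Cab) : Prop := ∃ j, e = .inr (.inl ⟨y, j⟩)

/-- The cable leaving a centre along its own label. -/
def IsCentre (e : p.Cab) : Prop :=
  ∃ y j, e = .inr (.inl ⟨y, j⟩) ∧ p.a y - p.t y + (j : ℕ) = p.a y + 1

theorem node_axis (v : p.Node) (h : p.lab v = none) :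
    ∃ e, p.IsAxis e ∧ (p.src e = v ∨ p.tgt e = v) := by
  have := p.two_le_K0
  have hM : p.M = 4 * p.K0 := rfl
  have hv := p.eq_axis h
  by_cases ht : p.tm v < p.M
  · exact ⟨.inl ⟨_, ht⟩, ⟨_, rfl⟩, Or.inl hv.symm⟩
  · have := p.tm_le v
    refine ⟨.inl ⟨p.M - 1, by omega⟩, ⟨_, rfl⟩, Or.inr ?_⟩
    rw [hv]; show p.axis (p.M - 1 + 1) = _
    congr 1; omega

theorem node_strand {v : p.Node} {y : p.L} (h : p.lab v = some y) :
    ∃ j : Fin (p.b y + p.t y - (p.a y - p.t y)),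
      p.src (.inr (.inl ⟨y, j⟩)) = v ∧ p.a y - p.t y + (j : ℕ) = p.tm v := by
  obtain ⟨h1, h2⟩ := p.in_of_lab h
  refine ⟨⟨p.tm v - (p.a y - p.t y), by omega⟩, ?_, by show _ + (p.tm v - _) = _; omega⟩
  show p.node y _ = v
  rw [show p.a y - p.t y + (p.tm v - (p.a y - p.t y)) = p.tm v by omega]
  exact (p.eq_node h).symm

namespace Blk

variable {p} (B : p.Blk)

open Classical in
/-- The chain below a node together with at most one filled cable is covered absolutely. -/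
theorem bag_icov {Λ : ℕ} (hΛ : tubeBound 4 ≤ Λ) (hsep : p.Sep) (v0 : p.Node)
    (o : Option (p.Cab × B.X.ι))
    (hint : ∀ ez, o = some ez → ez.2 ≠ B.P)
    (hcov : ∀ ez, o = some ez → ICov (B.X.pt '' (↑(B.X.anc ez.2) : Set B.X.ι)) Λ)
    (Z : Set H)
    (hZ : ∀ x ∈ Z, (∃ v, p.le v v0 ∧ x = p.npt v) ∨
      ∃ ez w, o = some ez ∧ w ∈ B.X.anc ez.2 ∧ x = p.place ez.1 (B.X.pt w)) :
    ICov Z Λ := by
  let E : Finset p.Cab := univ.filter fun e => p.IsAxis e ∨ p.IsCentre e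
    ∨ (∃ y, p.lab v0 = some y ∧ p.IsStrand y e) ∨ ∃ z, o = some (e, z)
  let P : p.Cab → Set H := fun e =>
    if h : ∃ z, o = some (e, z) then
      p.place e '' (B.X.pt '' (↑(B.X.anc h.choose) : Set B.X.ι) ∪ {0, p.Fr.e})
    else {p.npt (p.src e), p.npt (p.tgt e)}
  have hend : ∀ e, p.npt (p.src e) ∈ P e ∧ p.npt (p.tgt e) ∈ P e := by
    intro e
    simp only [P]
    split_ifs with h
    · exact ⟨⟨0, Or.inr (Or.inl rfl), p.place_zero e⟩, ⟨p.Fr.e, Or.inr (Or.inr rfl), p.place_e e⟩⟩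
    · exact ⟨Or.inl rfl, Or.inr rfl⟩
  have hcone0 : p.InCone (0 : H) ∧ p.InCone p.Fr.e := by
    simp [InCone, p.Fr.ee, p.Fr.he]
  refine p.tube_params hsep E P Z ?_ ?_ ?_ ?_ hΛ (L := 4)
  · intro x hx
    rcases hZ x hx with ⟨v, hv, rfl⟩ | ⟨⟨e, z⟩, w, ho, hw, rfl⟩
    · cases hl : p.lab v with
      | none =>
        obtain ⟨e, he, hev⟩ := p.node_axis v hl
        refine ⟨e, mem_filter.2 ⟨mem_univ _, Or.inl he⟩, ?_⟩
        rcases hev with hev | hev <;> rw [← hev]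
        · exact (hend e).1
        · exact (hend e).2
      | some y =>
        obtain ⟨j, hj, hjt⟩ := p.node_strand hl
        refine ⟨.inr (.inl ⟨y, j⟩), mem_filter.2 ⟨mem_univ _, Or.inr ?_⟩, by rw [← hj]; exact (hend _).1⟩
        rcases hv with ⟨hr, _⟩ | ⟨_, _, hlab, _⟩
        · exact Or.inl ⟨y, j, rfl, hjt.trans (hr y hl)⟩
        · exact Or.inr (Or.inl ⟨y, by rw [← hlab, hl], j, rfl⟩)
    · refine ⟨e, mem_filter.2 ⟨mem_univ _, Or.inr (Or.inr (Or.inr ⟨z, ho⟩))⟩, ?_⟩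
      have h : ∃ z', o = some (e, z') := ⟨z, ho⟩
      have hz : h.choose = z := by
        have := h.choose_spec.symm.trans ho
        exact (Prod.mk.inj (Option.some.inj this)).2
      simp only [P, dif_pos h]
      exact ⟨_, Or.inl ⟨w, mem_coe.2 (by rw [hz]; exact hw), rfl⟩, rfl⟩
  · intro e _ x hx
    simp only [P] at hx
    split_ifs at hx with h
    · obtain ⟨x', hx', rfl⟩ := hx
      rcases hx' with ⟨w, _, rfl⟩ | rfl | rfl
      · exact ⟨_, B.cone w, rfl⟩
      · exact ⟨_, hcone0.1, rfl⟩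
      · exact ⟨_, hcone0.2, rfl⟩
    · rcases hx with rfl | rfl
      · exact ⟨0, hcone0.1, (p.place_zero e).symm⟩
      · exact ⟨p.Fr.e, hcone0.2, (p.place_e e).symm⟩
  · intro i s _ _
    let E1 := univ.filter fun e : p.Cab => p.IsAxis e ∧ p.slot e = i
    let E2 := univ.filter fun e : p.Cab => p.IsCentre e ∧ p.slot e = i
    let E3 := univ.filter fun e : p.Cab => (∃ y, p.lab v0 = some y ∧ p.IsStrand y e) ∧ p.slot e = i
    let E4 := univ.filter fun e : p.Cab => ∃ z, o = some (e, z)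
    have h1 : E1.card ≤ 1 := card_le_one.2 fun e he e' he' => by
      obtain ⟨⟨j, rfl⟩, hj⟩ := (mem_filter.1 he).2
      obtain ⟨⟨j', rfl⟩, hj'⟩ := (mem_filter.1 he').2
      exact congrArg Sum.inl (Fin.ext (hj.trans hj'.symm))
    have h2 : E2.card ≤ 1 := card_le_one.2 fun e he e' he' => by
      obtain ⟨⟨y, j, rfl, hy⟩, hj⟩ := (mem_filter.1 he).2
      obtain ⟨⟨y', j', rfl, hy'⟩, hj'⟩ := (mem_filter.1 he').2
      simp only [slot] at hj hj'
      have hyy : y = y' := p.S.a_inj p.Y (by simp only [a] at hy hy' hj hj'; omega)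
      subst hyy
      rw [show j = j' from Fin.ext (by omega)]
    have h3 : E3.card ≤ 1 := card_le_one.2 fun e he e' he' => by
      obtain ⟨⟨y, hy, j, rfl⟩, hj⟩ := (mem_filter.1 he).2
      obtain ⟨⟨y', hy', j', rfl⟩, hj'⟩ := (mem_filter.1 he').2
      obtain rfl : y = y' := Option.some.inj (hy.symm.trans hy')
      simp only [slot] at hj hj'
      rw [show j = j' from Fin.ext (by omega)]
    have h4 : E4.card ≤ 1 := card_le_one.2 fun e he e' he' => by
      obtain ⟨z, hz⟩ := (mem_filter.1 he).2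
      obtain ⟨z', hz'⟩ := (mem_filter.1 he').2
      exact (Prod.mk.inj (Option.some.inj (hz.symm.trans hz'))).1
    refine cov_of_subset_finset (T := (E1 ∪ E2 ∪ E3 ∪ E4).image fun e => qpt p.offA p.offB e s) ?_ ?_
    · rintro w ⟨e, he, hi, rfl⟩
      refine mem_coe.2 (mem_image_of_mem (fun e => qpt p.offA p.offB e s) ?_)
      simp only [E1, E2, E3, E4, mem_union, mem_filter, mem_univ, true_and]
      rcases (mem_filter.1 he).2 with h | h | h | h
      · exact Or.inl (Or.inl (Or.inl ⟨h, hi⟩))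
      · exact Or.inl (Or.inl (Or.inr ⟨h, hi⟩))
      · exact Or.inl (Or.inr ⟨h, hi⟩)
      · exact Or.inr h
    · refine card_image_le.trans ?_
      have := card_union_le (E1 ∪ E2 ∪ E3) E4
      have := card_union_le (E1 ∪ E2) E3
      have := card_union_le E1 E2
      omega
  · intro e _
    simp only [P]
    split_ifs with h
    · refine ICov.image_similar ?_ (p.place e) (p.len_pos e) (p.place_dist e)
      refine (hcov _ h.choose_spec).mono ?_ le_rfl
      refine Set.union_subset le_rfl (Set.insert_subset ?_ (Set.singleton_subset_iff.2 ?_))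
      · exact ⟨B.P, mem_coe.2 (B.P_le _), B.hP⟩
      · exact ⟨B.Q, mem_coe.2 (B.Q_le _ (hint _ h.choose_spec)), B.hQ⟩
    · have h2 : ({p.npt (p.src e), p.npt (p.tgt e)} : Set H) = ↑({p.npt (p.src e), p.npt (p.tgt e)} : Finset H) := by
        simp
      rw [h2]
      refine (icov_finset _).mono le_rfl (card_le_two.trans ?_)
      unfold tubeBound at hΛ; omega

open Classical in
/-- Chains of the substituted block are covered absolutely. -/
theorem next_bag {Λ : ℕ} (hΛ : tubeBound 4 ≤ Λ) (hsep : p.Sep)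
    (hB : ∀ v, ICov (B.X.pt '' (↑(B.X.anc v) : Set B.X.ι)) Λ) (v : B.NI) :
    ICov (B.next.X.pt '' (↑(B.next.X.anc v) : Set B.next.X.ι)) Λ := by
  rcases v with v | ⟨e, z⟩
  · refine B.bag_icov hΛ hsep v none (by simp) (by simp) _ ?_
    rintro _ ⟨u, hu, rfl⟩
    have hu' := B.mem_nextForest.1 (mem_coe.1 hu)
    rcases u with u | ⟨e', w⟩
    · exact Or.inl ⟨u, hu', rfl⟩
    · exact hu'.elim
  · refine B.bag_icov hΛ hsep (p.deep e) (some (e, z.1))
      (fun ez h => by obtain rfl := Option.some.inj h; exact z.2.1) (fun ez h => ?_) _ ?_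
    · obtain rfl := Option.some.inj h; exact hB _
    rintro _ ⟨u, hu, rfl⟩
    have hu' := B.mem_nextForest.1 (mem_coe.1 hu)
    rcases u with u | ⟨e', w⟩
    · exact Or.inl ⟨u, hu', rfl⟩
    · obtain ⟨rfl, hw⟩ := hu'
      exact Or.inr ⟨(e', z.1), w.1, rfl, hw, rfl⟩

/-- The whole substituted block is covered, given the slices of the gadget. -/
theorem next_all {L Λ : ℕ} (hΛ : tubeBound L ≤ Λ) (hsep : p.Sep)
    (hslice : ∀ (i : ℕ) (s : ℝ), 0 ≤ s → s ≤ 1 →
      Cov {v : H | ∃ j ∈ (univ : Finset p.Cab), p.slot j = i ∧ v = qpt p.offA p.offB j s} L)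
    (hB : ICov (Set.range B.X.pt) Λ) : ICov (Set.range B.next.X.pt) Λ := by
  refine p.tube_params hsep univ (fun e => p.place e '' Set.range B.X.pt) _ ?_ ?_ hslice
    (fun e _ => hB.image_similar (p.place e) (p.len_pos e) (p.place_dist e)) hΛ
  · rintro _ ⟨v, rfl⟩
    rcases v with v | ⟨e, z⟩
    · have h : ∃ e, p.src e = v ∨ p.tgt e = v := by
        cases hl : p.lab v with
        | none => obtain ⟨e, -, he⟩ := p.node_axis v hl; exact ⟨e, he⟩
        | some y => obtain ⟨j, hj, -⟩ := p.node_strand hl; exact ⟨_, Or.inl hj⟩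
      obtain ⟨e, he⟩ := h
      refine ⟨e, mem_univ _, ?_⟩
      rcases he with he | he
      · exact ⟨0, ⟨B.P, B.hP⟩, by rw [p.place_zero, he]; rfl⟩
      · exact ⟨p.Fr.e, ⟨B.Q, B.hQ⟩, by rw [p.place_e, he]; rfl⟩
    · exact ⟨e, mem_univ _, _, ⟨z.1, rfl⟩, rfl⟩
  · rintro e _ _ ⟨_, ⟨w, rfl⟩, rfl⟩
    exact ⟨_, B.cone w, rfl⟩

end Blk

end Params

end Vale.Agent.P208.Neg
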