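import Vale.Agent.P208.Neg.Frame

/-! # P208: a frame of `ℓ²` and the base forest -/

open scoped RealInnerProductSpace

namespace Vale.Agent.P208.Neg

/-- Target coordinate of coordinate `n` under the `i`-th self-copy. -/
private def coord (i n : ℕ) : ℕ := 1 + Nat.pair i n

private theorem coord_inj (i : ℕ) : Function.Injective (coord i) := fun a b h => by
  have h' : Nat.pair i a = Nat.pair i b := by simp only [coord] at h; omega
  exact (Nat.pair_eq_pair.1 h').2

private theorem coord_ne {i j : ℕ} (h : i ≠ j) (a b : ℕ) : coord i a ≠ coord j b := fun h' => by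
  have h'' : Nat.pair i a = Nat.pair j b := by simp only [coord] at h'; omega
  exact h (Nat.pair_eq_pair.1 h'').1

private theorem shift_mem (i : ℕ) (x : lp (fun _ : ℕ => ℝ) 2) :
    Memℓp (Function.extend (coord i) (⇑x) 0) 2 := by
  refine memℓp_gen ?_
  have hx := (lp.memℓp x).summable (p := 2) (by norm_num)
  refine ((coord_inj i).summable_iff fun m hm => ?_).1 ?_
  · rw [Function.extend_apply' _ _ _ (by simpa [Set.mem_range] using hm)]
    simp
  · refine hx.congr fun n => ?_
    simp [(coord_inj i).extend_apply]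

private noncomputable def shift (i : ℕ) :
    lp (fun _ : ℕ => ℝ) 2 →ₗ[ℝ] lp (fun _ : ℕ => ℝ) 2 where
  toFun x := ⟨Function.extend (coord i) (⇑x) 0, shift_mem i x⟩
  map_add' x y := by
    refine lp.ext (funext fun m => ?_)
    simp only [lp.coeFn_add, Pi.add_apply]
    by_cases hm : ∃ n, coord i n = m
    · obtain ⟨n, rfl⟩ := hm
      simp [(coord_inj i).extend_apply]
    · simp [Function.extend_apply' _ _ _ hm]
  map_smul' c x := by
    refine lp.ext (funext fun m => ?_)
    simp only [lp.coeFn_smul, Pi.smul_apply, RingHom.id_apply]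
    by_cases hm : ∃ n, coord i n = m
    · obtain ⟨n, rfl⟩ := hm
      simp [(coord_inj i).extend_apply]
    · simp [Function.extend_apply' _ _ _ hm]

private theorem shift_apply (i : ℕ) (x : lp (fun _ : ℕ => ℝ) 2) :
    ⇑(shift i x) = Function.extend (coord i) (⇑x) 0 := rfl

private theorem inner_shift (i : ℕ) (x y : lp (fun _ : ℕ => ℝ) 2) :
    ⟪shift i x, shift i y⟫ = ⟪x, y⟫ := by
  rw [lp.inner_eq_tsum, lp.inner_eq_tsum, ← (coord_inj i).tsum_eq]
  · exact tsum_congr fun n => by simp [shift_apply, (coord_inj i).extend_apply]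
  · intro m hm
    by_contra h
    refine hm ?_
    simp [shift_apply, Function.extend_apply' _ _ _ (by simpa [Set.mem_range] using h)]

private theorem inner_shift_ne {i j : ℕ} (hij : i ≠ j) (x y : lp (fun _ : ℕ => ℝ) 2) :
    ⟪shift i x, shift j y⟫ = 0 := by
  rw [lp.inner_eq_tsum]
  refine (tsum_congr fun m => ?_).trans tsum_zero
  by_cases hi : ∃ n, coord i n = m
  · obtain ⟨n, rfl⟩ := hi
    have hj : ¬ ∃ a, coord j a = coord i n := fun ⟨a, ha⟩ => coord_ne hij n a ha.symm
    simp [shift_apply, Function.extend_apply' _ _ _ hj]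
  · simp [shift_apply, Function.extend_apply' _ _ _ hi]

/-- The frame of `ℓ²`: first basis vector, and the self-copies on disjoint sets of the others. -/
noncomputable def l2Frame : Frame (lp (fun _ : ℕ => ℝ) 2) where
  e := lp.single 2 0 1
  he := by rw [lp.norm_single (by norm_num)]; simp
  J i := (shift i).isometryOfInner (inner_shift i)
  Je i x := by
    rw [lp.inner_single_right]
    have h : ¬ ∃ n, coord i n = 0 := fun ⟨n, hn⟩ => by simp [coord] at hn
    simp [shift_apply, Function.extend_apply' _ _ _ h]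
  JJ i j x y hij := inner_shift_ne hij x y

variable {H : Type} [NormedAddCommGroup H] [InnerProductSpace ℝ H]

theorem Frame.norm_J_sub (Fr : Frame H) {i j : ℕ} (hij : i ≠ j) (x y : H) :
    ‖Fr.J i x - Fr.J j y‖ ^ 2 = ‖x‖ ^ 2 + ‖y‖ ^ 2 := by
  rw [norm_sub_sq_real, Fr.JJ i j x y hij, LinearIsometry.norm_map, LinearIsometry.norm_map]
  ring

/-- Enough orthonormal vectors in one chain have no embedding of distortion `D` in `ℝ^k`. -/
theorem base_forest (Fr : Frame H) (k : ℕ) (D : ℝ) (hD : 1 ≤ D) :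
    ∃ Y : Forest H, Y.NoEmb k D := by
  obtain ⟨T, _, hTf, hT⟩ := finite_cover_balls_of_compact
    (isCompact_closedBall (0 : EuclideanSpace ℝ (Fin k)) (2 * D)) (show (0:ℝ) < 1 / 2 by norm_num)
  let n := hTf.toFinset.card
  have hdist : ∀ a b : Fin (n + 1), a ≠ b →
      1 ≤ ‖Fr.J a Fr.e - Fr.J b Fr.e‖ ∧ ‖Fr.J a Fr.e - Fr.J b Fr.e‖ ≤ 2 := fun a b hab => by
    have h := Fr.norm_J_sub (fun h => hab (Fin.ext h)) Fr.e Fr.e
    rw [Fr.he] at h
    have h0 := norm_nonneg (Fr.J a Fr.e - Fr.J b Fr.e)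
    constructor <;> nlinarith
  let Y : Forest H :=
    { ι := Fin (n + 1)
      fin := inferInstance
      pt := fun a => Fr.J a Fr.e
      anc := fun v => Finset.Iic v
      refl := fun v => Finset.mem_Iic.2 le_rfl
      trans := fun u v h => Finset.Iic_subset_Iic.2 (Finset.mem_Iic.1 h)
      antisymm := fun u v h h' => le_antisymm (Finset.mem_Iic.1 h) (Finset.mem_Iic.1 h')
      chain := fun u v _ _ _ => by simpa only [Finset.mem_Iic] using le_total u v
      inj := fun _ a _ b _ h => by
        by_contra hab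
        have h1 := (hdist a b hab).1
        rw [show Fr.J a Fr.e = Fr.J b Fr.e from h, sub_self, norm_zero] at h1
        linarith }
  refine ⟨Y, fun g => ?_⟩
  by_contra hc
  push Not at hc
  have hpair : ∀ a b : Fin (n + 1), a ≠ b → 1 ≤ ‖g a - g b‖ ∧ ‖g a - g b‖ ≤ 2 * D := by
    have key : ∀ u v : Fin (n + 1), u < v → 1 ≤ ‖g v - g u‖ ∧ ‖g v - g u‖ ≤ 2 * D := fun u v h => by
      obtain ⟨h1, h2⟩ := hc v u (Finset.mem_Iic.2 h.le) h.ne
      obtain ⟨h3, h4⟩ := hdist v u h.ne'
      exact ⟨h3.trans h1, h2.trans (by nlinarith [mul_le_mul_of_nonneg_left h4 (zero_le_one.trans hD)])⟩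
    intro a b hab
    rcases lt_or_gt_of_ne hab with h | h
    · rw [norm_sub_rev]; exact key a b h
    · exact key b a h
  have hball : ∀ a : Fin (n + 1), ∃ c ∈ hTf.toFinset, ‖g a - g 0 - c‖ < 1 / 2 := fun a => by
    have hmem : g a - g 0 ∈ Metric.closedBall (0 : EuclideanSpace ℝ (Fin k)) (2 * D) := by
      rw [mem_closedBall_zero_iff]
      by_cases ha : a = 0
      · subst ha; simp; linarith
      · exact (hpair a 0 ha).2
    obtain ⟨c, hc1, hc2⟩ := Set.mem_iUnion₂.1 (hT hmem)
    exact ⟨c, hTf.mem_toFinset.2 hc1, by rwa [← dist_eq_norm]⟩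
  choose c hc1 hc2 using hball
  obtain ⟨a, -, b, -, hab, hcab⟩ := Finset.exists_ne_map_eq_of_card_lt_of_maps_to
    (s := (Finset.univ : Finset (Fin (n + 1)))) (t := hTf.toFinset) (f := c)
    (by simp [n]) (fun a _ => hc1 a)
  have h1 := (hpair a b hab).1
  have h2 := hc2 a
  have h3 := hc2 b
  rw [hcab] at h2
  have h4 : g a - g b = (g a - g 0 - c b) - (g b - g 0 - c b) := by abel
  rw [h4] at h1
  linarith [norm_sub_le (g a - g 0 - c b) (g b - g 0 - c b)]

end Vale.Agent.P208.Neg
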