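import Mathlib

/-! # P208: trapezoidal profiles on the integer grid -/

open Finset

namespace Vale.Agent.P208.Neg

/-- Rises from `0` at `a - t` to `1` at `a`, stays to `b`, falls to `0` at `b + t`. -/
noncomputable def prof (a b t : ℕ) (i : ℕ) : ℝ :=
  max 0 (min 1 (min ((((i : ℝ) - a) / t) + 1) ((((b : ℝ) - i) / t) + 1)))

variable {a b t i : ℕ}

theorem prof_nonneg : 0 ≤ prof a b t i := le_max_left _ _

theorem prof_le_one : prof a b t i ≤ 1 := max_le zero_le_one (min_le_left _ _)

theorem prof_one (h1 : a ≤ i) (h2 : i ≤ b) : prof a b t i = 1 := by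
  have e1 : (0:ℝ) ≤ ((i : ℝ) - a) / t := div_nonneg (sub_nonneg.2 (by exact_mod_cast h1)) (by positivity)
  have e2 : (0:ℝ) ≤ ((b : ℝ) - i) / t := div_nonneg (sub_nonneg.2 (by exact_mod_cast h2)) (by positivity)
  rw [prof, min_eq_left (le_min (by linarith) (by linarith)), max_eq_right zero_le_one]

theorem prof_zero (ht : 1 ≤ t) (h : i + t ≤ a ∨ b + t ≤ i) : prof a b t i = 0 := by
  have htR : (0:ℝ) < t := by exact_mod_cast ht
  refine max_eq_left ((min_le_right _ _).trans ?_)
  rcases h with h | h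
  · refine (min_le_left _ _).trans ?_
    have : (i : ℝ) + t ≤ a := by exact_mod_cast h
    rw [div_add_one htR.ne', div_nonpos_iff]
    exact Or.inr ⟨by linarith, htR.le⟩
  · refine (min_le_right _ _).trans ?_
    have : (b : ℝ) + t ≤ i := by exact_mod_cast h
    rw [div_add_one htR.ne', div_nonpos_iff]
    exact Or.inr ⟨by linarith, htR.le⟩

theorem prof_ge (ht : 1 ≤ t) (h1 : a + 1 ≤ i + t) (h2 : i + 1 ≤ b + t) :
    1 / (t : ℝ) ≤ prof a b t i := by
  have htR : (0:ℝ) < t := by exact_mod_cast ht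
  refine le_max_of_le_right (le_min ?_ (le_min ?_ ?_))
  · rw [div_le_one htR]; exact_mod_cast ht
  · have : (a : ℝ) + 1 ≤ i + t := by exact_mod_cast h1
    rw [div_add_one htR.ne', div_le_div_iff_of_pos_right htR]; linarith
  · have : (i : ℝ) + 1 ≤ b + t := by exact_mod_cast h2
    rw [div_add_one htR.ne', div_le_div_iff_of_pos_right htR]; linarith

theorem prof_step (ht : 1 ≤ t) : |prof a b t (i + 1) - prof a b t i| ≤ 1 / (t : ℝ) := by
  have htR : (0:ℝ) < t := by exact_mod_cast ht
  unfold prof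
  refine (abs_max_sub_max_le_max _ _ _ _).trans (max_le (by simp) ?_)
  refine (abs_min_sub_min_le_max _ _ _ _).trans (max_le (by simp) ?_)
  refine (abs_min_sub_min_le_max _ _ _ _).trans (max_le (le_of_eq ?_) (le_of_eq ?_))
  · rw [show ((i + 1 : ℕ) : ℝ) = i + 1 by push_cast; ring, add_sub_add_right_eq_sub, ← sub_div,
      show (i : ℝ) + 1 - a - (i - a) = 1 by ring, abs_of_pos (by positivity)]
  · rw [show ((i + 1 : ℕ) : ℝ) = i + 1 by push_cast; ring, add_sub_add_right_eq_sub, ← sub_div,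
      show (b : ℝ) - (i + 1) - (b - i) = -1 by ring, neg_div, abs_neg, abs_of_pos (by positivity)]

theorem prof_energy (ht : 1 ≤ t) (M : ℕ) :
    ∑ i ∈ range M, (prof a b t (i + 1) - prof a b t i) ^ 2 ≤ 2 / (t : ℝ) := by
  classical
  have htR : (0:ℝ) < t := by exact_mod_cast ht
  let S : Finset ℕ := Ico (a - t) a ∪ Ico b (b + t)
  have hS : ∀ i, i ∉ S → prof a b t (i + 1) - prof a b t i = 0 := by
    intro i hi
    simp only [S, mem_union, mem_Ico, not_or] at hi
    rcases (by omega : (i + 1 + t ≤ a) ∨ (a ≤ i ∧ i + 1 ≤ b) ∨ (b + t ≤ i)) with h | ⟨h, h'⟩ | h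
    · rw [prof_zero ht (Or.inl h), prof_zero ht (Or.inl (by omega)), sub_self]
    · rw [prof_one (by omega) h', prof_one h (by omega), sub_self]
    · rw [prof_zero ht (Or.inr (by omega)), prof_zero ht (Or.inr h), sub_self]
  calc ∑ i ∈ range M, (prof a b t (i + 1) - prof a b t i) ^ 2
      = ∑ i ∈ (range M).filter (· ∈ S), (prof a b t (i + 1) - prof a b t i) ^ 2 := by
        refine (sum_filter_of_ne fun i _ hne => ?_).symm
        by_contra h
        exact hne (by rw [hS i h]; ring)
    _ ≤ ((range M).filter (· ∈ S)).card • ((1 / (t : ℝ)) ^ 2) := by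
        refine sum_le_card_nsmul _ _ _ fun i _ => ?_
        rw [← sq_abs]
        exact pow_le_pow_left₀ (abs_nonneg _) (prof_step ht) 2
    _ ≤ (2 * t : ℕ) • ((1 / (t : ℝ)) ^ 2) := by
        refine nsmul_le_nsmul_left (by positivity) ?_
        refine (card_le_card fun i hi => (mem_filter.1 hi).2).trans
          ((card_union_le _ _).trans ?_)
        rw [Nat.card_Ico, Nat.card_Ico]; omega
    _ = 2 / (t : ℝ) := by rw [nsmul_eq_mul]; push_cast; field_simp

end Vale.Agent.P208.Neg
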