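import Vale.Agent.P208.Neg.Times
import Vale.Agent.P208.Neg.Profile

/-! # P208: the gadget built from a forest -/

open Finset
open scoped RealInnerProductSpace

namespace Vale.Agent.P208.Neg

variable {H : Type} [NormedAddCommGroup H] [InnerProductSpace ℝ H]

/-- Parameters of a gadget. -/
structure Params (H : Type) [NormedAddCommGroup H] [InnerProductSpace ℝ H] where
  Fr : Frame H
  Y : Forest H
  R : ℕ
  K0 : ℕ
  ν : ℝ
  ε : ℝ
  C : ℝ
  hR : 1 ≤ R
  hK0 : wid (Fintype.card Y.ι) R (Fintype.card Y.ι) + 2 ≤ K0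
  hν : 0 < ν
  hν1 : ν ≤ 1
  hε : 0 < ε
  hC : ∀ y, 8 * (‖Y.pt y‖ + 1) ≤ C
  hC1 : 8 ≤ C
  hεμ : 128 * C * ε ≤ 1 / (4 * K0 : ℝ)
  hμC : 1024 * C * (1 / (4 * K0 : ℝ)) ≤ ν / ((R * wid (Fintype.card Y.ι) R (Fintype.card Y.ι) + 1 : ℕ) : ℝ)
  hεκ : 2048 * C * C * ε ≤ ν / ((R * wid (Fintype.card Y.ι) R (Fintype.card Y.ι) + 1 : ℕ) : ℝ)

namespace Params

variable (p : Params H)

noncomputable def S : Sched := ⟨p.R, p.K0, p.hR⟩

abbrev L : Type := p.Y.ι

noncomputable def M : ℕ := 4 * p.K0

noncomputable def μ : ℝ := 1 / (4 * p.K0 : ℝ)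

noncomputable def a (y : p.L) : ℕ := p.S.a p.Y y
noncomputable def b (y : p.L) : ℕ := p.S.b p.Y y
noncomputable def t (y : p.L) : ℕ := p.S.tr p.Y y

theorem one_le_t (y : p.L) : 1 ≤ p.t y := p.S.tr_pos p.Y y

theorem two_le_K0 : 2 ≤ p.K0 := le_trans (Nat.le_add_left _ _) p.hK0

theorem times (y : p.L) :
    p.K0 + p.t y + 2 ≤ p.a y ∧ p.a y + 4 ≤ p.b y ∧ p.b y + p.t y + 2 ≤ 2 * p.K0 := by
  refine ⟨p.S.tr_le_a p.Y y, ?_, ?_⟩
  · simp only [b, a, Sched.b]; have := p.S.two_le_w p.Y y; omega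
  · have := p.S.hi_le p.Y y
    have hS : p.S.base = p.K0 := rfl
    have hR : p.S.R = p.R := rfl
    rw [hS, hR] at this
    have := p.hK0
    simp only [b, t, Sched.K] at *
    omega

theorem μ_pos : 0 < p.μ := by
  have : (0:ℝ) < p.K0 := by exact_mod_cast p.two_le_K0.trans_lt' (by norm_num)
  unfold μ; positivity

theorem M_mul : (p.M : ℝ) * p.μ = 1 := by
  have : (0:ℝ) < p.K0 := by exact_mod_cast p.two_le_K0.trans_lt' (by norm_num)
  unfold M μ; push_cast; field_simp

theorem μ_le : p.μ ≤ 1 / 8 := by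
  have : (2:ℝ) ≤ p.K0 := by exact_mod_cast p.two_le_K0
  unfold μ; exact one_div_le_one_div_of_le (by norm_num) (by linarith)

/-- The extra basis vector of a label. -/
noncomputable def q (y : p.L) : H := p.Fr.J 1 (p.Fr.J (Sched.idx p.Y y) p.Fr.e)

/-- The lifted point of a label. -/
noncomputable def lift (y : p.L) : H := p.Fr.J 0 (p.Y.pt y) + p.ν • p.q y

theorem lift_e (y : p.L) : ⟪p.lift y, p.Fr.e⟫ = 0 := by
  simp [lift, q, inner_add_left, real_inner_smul_left, p.Fr.Je]

open Classical in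
theorem q_q (y z : p.L) : ⟪p.q y, p.q z⟫ = if y = z then (1 : ℝ) else 0 := by
  simp only [q, LinearIsometry.inner_map_map]
  split_ifs with h
  · subst h; rw [LinearIsometry.inner_map_map, p.Fr.ee]
  · exact p.Fr.JJ _ _ _ _ fun h' => h (Sched.idx_inj p.Y h')

theorem norm_q (y : p.L) : ‖p.q y‖ = 1 := by simp [q, p.Fr.he]

theorem norm_lift (y : p.L) : ‖p.lift y‖ ≤ p.C / 8 := by
  refine (norm_add_le _ _).trans ?_
  rw [LinearIsometry.norm_map, norm_smul, p.norm_q, mul_one, Real.norm_eq_abs, abs_of_pos p.hν]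
  have := p.hC y; have := p.hν1; linarith

/-- Coefficient on the extra basis vector. -/
noncomputable def coef (y : p.L) (v : H) : ℝ := ⟪v, p.q y⟫ / p.ν

theorem coef_le (y : p.L) (v : H) : |p.coef y v| * p.ν ≤ ‖v‖ := by
  rw [coef, abs_div, abs_of_pos p.hν, div_mul_cancel₀ _ p.hν.ne']
  simpa [p.norm_q] using abs_real_inner_le_norm v (p.q y)

open Classical in
theorem coef_lift (y z : p.L) : p.coef y (p.lift z) = if z = y then (1 : ℝ) else 0 := by
  rw [coef, lift, inner_add_left, real_inner_smul_left, p.q_q]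
  have : ⟪p.Fr.J 0 (p.Y.pt z), p.q y⟫ = 0 := p.Fr.JJ 0 1 _ _ (by norm_num)
  rw [this, zero_add, mul_div_cancel_left₀ _ p.hν.ne']

/-- The profile of a label. -/
noncomputable def ph (y : p.L) (i : ℕ) : ℝ := prof (p.a y) (p.b y) (p.t y) i

/-- Grid time `i` lies in the open window of `y`. -/
def In (y : p.L) (i : ℕ) : Prop := p.a y < i + p.t y ∧ i < p.b y + p.t y

theorem ph_zero {y : p.L} {i : ℕ} (h : ¬ p.In y i) : p.ph y i = 0 := by
  refine prof_zero (p.one_le_t y) ?_
  simp only [In, not_and_or, not_lt] at h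
  exact h

/-- Valid node labels. -/
def Valid : Fin (p.M + 1) × Option p.L → Prop
  | (_, none) => True
  | (i, some y) => p.In y i

/-- Nodes. -/
def Node : Type := {x : Fin (p.M + 1) × Option p.L // p.Valid x}

noncomputable instance : Fintype p.Node := by
  classical exact inferInstanceAs (Fintype {x : Fin (p.M + 1) × Option p.L // p.Valid x})

/-- Time index of a node. -/
def tm (v : p.Node) : ℕ := (v.1.1 : ℕ)

/-- Label of a node. -/
def lab (v : p.Node) : Option p.L := v.1.2

theorem node_ext {u v : p.Node} (h1 : p.tm u = p.tm v) (h2 : p.lab u = p.lab v) : u = v :=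
  Subtype.ext (Prod.ext (Fin.ext h1) h2)

theorem tm_le (v : p.Node) : p.tm v ≤ p.M := Nat.le_of_lt_succ v.1.1.isLt

theorem in_of_lab {v : p.Node} {y : p.L} (h : p.lab v = some y) : p.In y (p.tm v) := by
  obtain ⟨⟨i, o⟩, hv⟩ := v
  simp only [lab] at h
  subst h
  exact hv

/-- Offset of a node. -/
noncomputable def offs (v : p.Node) : H :=
  match p.lab v with
  | none => 0
  | some y => p.ph y (p.tm v) • p.lift y

/-- Position of a node. -/
noncomputable def npt (v : p.Node) : H := ((p.tm v : ℝ) * p.μ) • p.Fr.e + p.ε • p.offs v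

/-- Axis node. -/
noncomputable def axis (i : ℕ) : p.Node :=
  ⟨(⟨min i p.M, Nat.lt_succ_of_le (min_le_right _ _)⟩, none), trivial⟩

/-- A node inside the window of `y`. -/
noncomputable def mkNode (y : p.L) (i : ℕ) (h : p.In y i) : p.Node :=
  ⟨(⟨i, Nat.lt_succ_of_le (by have := p.times y; have := h.2; simp only [M]; omega)⟩, some y), h⟩

open Classical in
/-- Node of label `y` at time `i`, the axis node outside its window. -/
noncomputable def node (y : p.L) (i : ℕ) : p.Node :=
  if h : p.In y i then p.mkNode y i h else p.axis i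

theorem axis_tm {i : ℕ} (hi : i ≤ p.M) : p.tm (p.axis i) = i := min_eq_left hi

theorem axis_lab (i : ℕ) : p.lab (p.axis i) = none := rfl

theorem node_tm {y : p.L} {i : ℕ} (hi : i ≤ p.M) : p.tm (p.node y i) = i := by
  unfold node; split_ifs with h
  · rfl
  · exact p.axis_tm hi

theorem node_lab {y : p.L} {i : ℕ} (h : p.In y i) : p.lab (p.node y i) = some y := by
  unfold node; rw [dif_pos h]; rfl

theorem node_out {y : p.L} {i : ℕ} (h : ¬ p.In y i) : p.node y i = p.axis i := by
  unfold node; rw [dif_neg h]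

theorem axis_offs (i : ℕ) : p.offs (p.axis i) = 0 := rfl

theorem node_offs (y : p.L) (i : ℕ) : p.offs (p.node y i) = p.ph y i • p.lift y := by
  unfold node; split_ifs with h
  · rfl
  · rw [p.axis_offs, p.ph_zero h, zero_smul]

theorem eq_axis {v : p.Node} (h : p.lab v = none) : v = p.axis (p.tm v) :=
  p.node_ext (p.axis_tm (p.tm_le v)).symm h

theorem eq_node {v : p.Node} {y : p.L} (h : p.lab v = some y) : v = p.node y (p.tm v) :=
  p.node_ext (p.node_tm (p.tm_le v)).symm (by rw [p.node_lab (p.in_of_lab h), h])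

theorem offs_e (v : p.Node) : ⟪p.offs v, p.Fr.e⟫ = 0 := by
  unfold offs; cases p.lab v <;> simp [real_inner_smul_left, p.lift_e]

theorem norm_offs (v : p.Node) : ‖p.offs v‖ ≤ p.C / 8 := by
  unfold offs
  cases p.lab v with
  | none => simp; linarith [p.hC1]
  | some y =>
    simp only [norm_smul, Real.norm_eq_abs, ph, abs_of_nonneg prof_nonneg]
    calc prof (p.a y) (p.b y) (p.t y) (p.tm v) * ‖p.lift y‖ ≤ 1 * (p.C / 8) :=
          mul_le_mul prof_le_one (p.norm_lift y) (norm_nonneg _) zero_le_one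
      _ = p.C / 8 := one_mul _

theorem npt_e (v : p.Node) : ⟪p.npt v, p.Fr.e⟫ = (p.tm v : ℝ) * p.μ := by
  simp [npt, inner_add_left, real_inner_smul_left, p.Fr.ee, p.offs_e, p.Fr.he]

open Classical in
theorem coef_offs (y : p.L) (v : p.Node) :
    p.coef y (p.offs v) = if p.lab v = some y then p.ph y (p.tm v) else 0 := by
  unfold offs
  cases h : p.lab v with
  | none => simp [coef]
  | some z =>
    simp only [Option.some.injEq]
    have : p.coef y (p.ph z (p.tm v) • p.lift z) = p.ph z (p.tm v) * p.coef y (p.lift z) := by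
      rw [coef, coef, real_inner_smul_left, mul_div_assoc]
    rw [this, p.coef_lift]
    split_ifs with h1
    · subst h1; rw [mul_one]
    · rw [mul_zero]

/-- Bound for all transfer lengths. -/
noncomputable def T : ℕ := p.R * wid (Fintype.card p.Y.ι) p.R (Fintype.card p.Y.ι) + 1

theorem ph_ge {y : p.L} {i : ℕ} (h : p.In y i) : 1 / (p.T : ℝ) ≤ p.ph y i := by
  refine le_trans ?_ (prof_ge (p.one_le_t y) h.1 h.2)
  have ht : p.t y ≤ p.T := by
    simp only [t, T, Sched.tr_eq]
    exact (Nat.mul_le_mul_left _ (p.S.w_le p.Y y)).trans (Nat.le_add_right _ _)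
  exact one_div_le_one_div_of_le (by exact_mod_cast p.one_le_t y) (by exact_mod_cast ht)

theorem npt_inj : Function.Injective p.npt := by
  intro u v h
  have h1 : p.tm u = p.tm v := by
    have := congrArg (fun x => ⟪x, p.Fr.e⟫) h
    simp only [npt_e] at this
    exact_mod_cast mul_right_cancel₀ p.μ_pos.ne' this
  have h2 : p.offs u = p.offs v := by
    simp only [npt, h1, add_right_inj] at h
    exact smul_right_injective H p.hε.ne' h
  refine p.node_ext h1 ?_
  cases hu : p.lab u with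
  | none =>
    cases hv : p.lab v with
    | none => rfl
    | some y =>
      have h3 := congrArg (p.coef y) h2
      rw [p.coef_offs, p.coef_offs, hu, hv, if_neg (by simp), if_pos rfl] at h3
      have := p.ph_ge (p.in_of_lab hv)
      have : (0:ℝ) < 1 / (p.T : ℝ) := by
        have : 0 < p.T := Nat.succ_pos _
        positivity
      linarith
  | some y =>
    have h3 := congrArg (p.coef y) h2
    rw [p.coef_offs, p.coef_offs, hu, if_pos rfl] at h3
    split_ifs at h3 with h4
    · exact h4.symm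
    · have := p.ph_ge (p.in_of_lab hu)
      have : (0:ℝ) < 1 / (p.T : ℝ) := by
        have : 0 < p.T := Nat.succ_pos _
        positivity
      linarith

/-- Root nodes: the axis and one centre per label. -/
def Root (v : p.Node) : Prop := ∀ y, p.lab v = some y → p.tm v = p.a y + 1

/-- Rank of a root node. -/
noncomputable def rank (v : p.Node) : ℕ :=
  match p.lab v with
  | none => if p.tm v = 0 then 0 else if p.tm v = p.M then 1 else 2 + p.tm v
  | some _ => p.M + 3 + p.tm v

/-- The order on nodes. -/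
def le (u v : p.Node) : Prop :=
  (p.Root u ∧ (¬ p.Root v ∨ p.rank u ≤ p.rank v)) ∨
    (¬ p.Root u ∧ ¬ p.Root v ∧ p.lab u = p.lab v ∧ p.tm u ≤ p.tm v)

theorem rank_inj {u v : p.Node} (hu : p.Root u) (hv : p.Root v) (h : p.rank u = p.rank v) :
    u = v := by
  have h1 := p.tm_le u
  have h2 := p.tm_le v
  have h3 := p.two_le_K0
  have hM : p.M = 4 * p.K0 := rfl
  unfold rank at h
  cases hu' : p.lab u with
  | none =>
    cases hv' : p.lab v with
    | none =>
      simp only [hu', hv'] at h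
      refine p.node_ext ?_ (by rw [hu', hv'])
      split_ifs at h <;> omega
    | some z =>
      simp only [hu', hv'] at h
      split_ifs at h <;> omega
  | some y =>
    cases hv' : p.lab v with
    | none =>
      simp only [hu', hv'] at h
      split_ifs at h <;> omega
    | some z =>
      simp only [hu', hv'] at h
      have e1 := hu y hu'
      have e2 := hv z hv'
      have : y = z := p.S.a_inj p.Y (by simp only [a] at e1 e2; omega)
      exact p.node_ext (by omega) (by rw [hu', hv', this])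

theorem le_refl' (v : p.Node) : p.le v v := by
  by_cases h : p.Root v
  · exact Or.inl ⟨h, Or.inr le_rfl⟩
  · exact Or.inr ⟨h, h, rfl, le_rfl⟩

theorem le_trans' {u v w : p.Node} (h1 : p.le u v) (h2 : p.le v w) : p.le u w := by
  rcases h1 with ⟨hu, h1⟩ | ⟨hu, hv, h1, h1'⟩
  · rcases h2 with ⟨hv, h2⟩ | ⟨_, hw, _, _⟩
    · rcases h2 with h2 | h2
      · exact Or.inl ⟨hu, Or.inl h2⟩
      · exact Or.inl ⟨hu, Or.inr ((h1.resolve_left (not_not.2 hv)).trans h2)⟩
    · exact Or.inl ⟨hu, Or.inl hw⟩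
  · rcases h2 with ⟨hv', _⟩ | ⟨_, hw, h2, h2'⟩
    · exact absurd hv' hv
    · exact Or.inr ⟨hu, hw, h1.trans h2, h1'.trans h2'⟩

theorem le_antisymm' {u v : p.Node} (h1 : p.le u v) (h2 : p.le v u) : u = v := by
  rcases h1 with ⟨hu, h1⟩ | ⟨hu, hv, h1, h1'⟩
  · rcases h2 with ⟨hv, h2⟩ | ⟨_, hu', _, _⟩
    · exact p.rank_inj hu hv (le_antisymm (h1.resolve_left (not_not.2 hv))
        (h2.resolve_left (not_not.2 hu)))
    · exact absurd hu hu'
  · rcases h2 with ⟨hv', _⟩ | ⟨_, _, _, h2'⟩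
    · exact absurd hv' hv
    · exact p.node_ext (le_antisymm h1' h2') h1

theorem le_total_of {u v : p.Node} (h : p.Root u ∨ p.Root v ∨ p.lab u = p.lab v) :
    p.le u v ∨ p.le v u := by
  by_cases hu : p.Root u <;> by_cases hv : p.Root v
  · rcases le_total (p.rank u) (p.rank v) with h | h
    · exact Or.inl (Or.inl ⟨hu, Or.inr h⟩)
    · exact Or.inr (Or.inl ⟨hv, Or.inr h⟩)
  · exact Or.inl (Or.inl ⟨hu, Or.inl hv⟩)
  · exact Or.inr (Or.inl ⟨hv, Or.inl hu⟩)
  · have hl := (h.resolve_left hu).resolve_left hv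
    rcases le_total (p.tm u) (p.tm v) with h | h
    · exact Or.inl (Or.inr ⟨hu, hv, hl, h⟩)
    · exact Or.inr (Or.inr ⟨hv, hu, hl.symm, h⟩)

theorem le_chain {u v w : p.Node} (h1 : p.le u w) (h2 : p.le v w) : p.le u v ∨ p.le v u := by
  refine p.le_total_of ?_
  rcases h1 with ⟨hu, _⟩ | ⟨_, _, h1, _⟩
  · exact Or.inl hu
  rcases h2 with ⟨hv, _⟩ | ⟨_, _, h2, _⟩
  · exact Or.inr (Or.inl hv)
  exact Or.inr (Or.inr (h1.trans h2.symm))

/-- The start node. -/
noncomputable def P : p.Node := p.axis 0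
/-- The end node. -/
noncomputable def Q : p.Node := p.axis p.M

theorem root_axis (i : ℕ) : p.Root (p.axis i) := fun y h => by simp [axis_lab] at h

theorem root_of_none {v : p.Node} (h : p.lab v = none) : p.Root v := fun y h' => by simp [h] at h'

theorem P_le (v : p.Node) : p.le p.P v := by
  refine Or.inl ⟨p.root_axis 0, Or.inr ?_⟩
  simp [rank, P, axis_lab, p.axis_tm (Nat.zero_le _)]

theorem Q_le {v : p.Node} (h : v ≠ p.P) : p.le p.Q v := by
  refine Or.inl ⟨p.root_axis _, Or.inr ?_⟩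
  have h3 := p.two_le_K0
  have hM : p.M = 4 * p.K0 := rfl
  unfold rank
  simp only [Q, axis_lab, p.axis_tm le_rfl]
  rw [if_neg (by omega), if_pos trivial]
  cases hv : p.lab v with
  | none =>
    have : p.tm v ≠ 0 := fun h0 => h (by rw [p.eq_axis hv, h0]; rfl)
    simp only
    split_ifs <;> omega
  | some y => simp only; omega

/-- Cables: axis steps, steps along each label's window, and execution steps. -/
abbrev Cab : Type := Fin p.M ⊕ ((Σ y : p.L, Fin (p.b y + p.t y - (p.a y - p.t y))) ⊕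
  {x : p.L × p.L // x.1 ∈ p.Y.anc x.2 ∧ x.1 ≠ x.2})

noncomputable instance : Fintype p.Cab := by
  classical exact inferInstanceAs (Fintype (Fin p.M ⊕
    ((Σ y : p.L, Fin (p.b y + p.t y - (p.a y - p.t y))) ⊕
      {x : p.L × p.L // x.1 ∈ p.Y.anc x.2 ∧ x.1 ≠ x.2})))

/-- Starting time of a cable. -/
noncomputable def slot : p.Cab → ℕ
  | .inl i => i
  | .inr (.inl ⟨y, j⟩) => p.a y - p.t y + j
  | .inr (.inr x) => p.a x.1.2

/-- Start of a cable. -/
noncomputable def src : p.Cab → p.Node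
  | .inl i => p.axis i
  | .inr (.inl ⟨y, j⟩) => p.node y (p.a y - p.t y + j)
  | .inr (.inr x) => p.node x.1.1 (p.a x.1.2)

/-- End of a cable. -/
noncomputable def tgt : p.Cab → p.Node
  | .inl i => p.axis (i + 1)
  | .inr (.inl ⟨y, j⟩) => p.node y (p.a y - p.t y + j + 1)
  | .inr (.inr x) => p.node x.1.2 (p.a x.1.2 + 1)

theorem slot_lt (e : p.Cab) : p.slot e < p.M := by
  rcases e with i | ⟨y, j⟩ | x
  · exact i.isLt
  · simp only [slot]; have := p.times y; have := j.isLt; simp only [M]; omega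
  · simp only [slot]; have := p.times x.1.2; simp only [M]; omega

theorem src_tm (e : p.Cab) : p.tm (p.src e) = p.slot e := by
  have h := (p.slot_lt e).le
  rcases e with i | ⟨y, j⟩ | x
  · exact p.axis_tm h
  · exact p.node_tm h
  · exact p.node_tm h

theorem tgt_tm (e : p.Cab) : p.tm (p.tgt e) = p.slot e + 1 := by
  have h : p.slot e + 1 ≤ p.M := p.slot_lt e
  rcases e with i | ⟨y, j⟩ | x
  · exact p.axis_tm h
  · exact p.node_tm h
  · exact p.node_tm h

theorem in_exec_src (x : {x : p.L × p.L // x.1 ∈ p.Y.anc x.2 ∧ x.1 ≠ x.2}) :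
    p.In x.1.1 (p.a x.1.2) ∧ p.In x.1.2 (p.a x.1.2 + 1) ∧ p.ph x.1.1 (p.a x.1.2) = 1
      ∧ p.ph x.1.2 (p.a x.1.2 + 1) = 1 ∧ p.In x.1.1 (p.a x.1.2 + 1) := by
  have hn : p.a x.1.1 + 2 + p.t x.1.2 ≤ p.a x.1.2 ∧ p.b x.1.2 + p.t x.1.2 + 2 ≤ p.b x.1.1 :=
    p.S.nested p.Y x.2.1 x.2.2
  have := p.times x.1.1
  have := p.times x.1.2
  have := p.one_le_t x.1.1
  have := p.one_le_t x.1.2
  refine ⟨⟨by omega, by omega⟩, ⟨by omega, by omega⟩, prof_one (by omega) (by omega),
    prof_one (by omega) (by omega), ⟨by omega, by omega⟩⟩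

theorem root_centre (y : p.L) : p.Root (p.node y (p.a y + 1)) := by
  have := p.times y
  intro z hz
  rw [p.node_lab ⟨by omega, by omega⟩] at hz
  obtain rfl := Option.some.inj hz
  exact p.node_tm (by simp only [M]; omega)

theorem cable_comparable (e : p.Cab) : p.le (p.src e) (p.tgt e) ∨ p.le (p.tgt e) (p.src e) := by
  refine p.le_total_of ?_
  rcases e with i | ⟨y, j⟩ | x
  · exact Or.inl (p.root_axis _)
  · by_cases h1 : p.In y (p.a y - p.t y + j)
    · by_cases h2 : p.In y (p.a y - p.t y + j + 1)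
      · exact Or.inr (Or.inr (by simp only [src, tgt, p.node_lab h1, p.node_lab h2]))
      · refine Or.inr (Or.inl ?_)
        simp only [tgt, p.node_out h2]; exact p.root_axis _
    · refine Or.inl ?_
      simp only [src, p.node_out h1]; exact p.root_axis _
  · exact Or.inr (Or.inl (p.root_centre _))

open Classical in
/-- The endpoint lower in the order. -/
noncomputable def deep (e : p.Cab) : p.Node := if p.le (p.src e) (p.tgt e) then p.tgt e else p.src e

theorem le_deep (e : p.Cab) : p.le (p.src e) (p.deep e) ∧ p.le (p.tgt e) (p.deep e) := by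
  unfold deep; split_ifs with h
  · exact ⟨h, p.le_refl' _⟩
  · exact ⟨p.le_refl' _, (p.cable_comparable e).resolve_left h⟩

/-- Length of a cable. -/
noncomputable def len (e : p.Cab) : ℝ := ‖p.npt (p.tgt e) - p.npt (p.src e)‖

theorem npt_sub (e : p.Cab) : p.npt (p.tgt e) - p.npt (p.src e)
    = p.μ • p.Fr.e + p.ε • (p.offs (p.tgt e) - p.offs (p.src e)) := by
  simp only [npt, p.src_tm, p.tgt_tm]; push_cast; module

theorem len_sq (e : p.Cab) :
    p.len e ^ 2 = p.μ ^ 2 + p.ε ^ 2 * ‖p.offs (p.tgt e) - p.offs (p.src e)‖ ^ 2 := by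
  rw [len, p.npt_sub, p.Fr.norm_axis_add _ (by simp [real_inner_smul_left, inner_sub_left, p.offs_e]),
    norm_smul, Real.norm_eq_abs, abs_of_pos p.hε]
  ring

theorem μ_le_len (e : p.Cab) : p.μ ≤ p.len e := by
  refine (abs_le_of_sq_le_sq' ?_ (norm_nonneg _)).2
  rw [show ‖p.npt (p.tgt e) - p.npt (p.src e)‖ = p.len e from rfl, p.len_sq]
  nlinarith [sq_nonneg (p.ε * ‖p.offs (p.tgt e) - p.offs (p.src e)‖)]

theorem len_pos (e : p.Cab) : 0 < p.len e := p.μ_pos.trans_le (p.μ_le_len e)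

theorem len_le (e : p.Cab) :
    p.len e ≤ p.μ + p.ε ^ 2 * ‖p.offs (p.tgt e) - p.offs (p.src e)‖ ^ 2 / (2 * p.μ) := by
  have h := p.μ_pos
  set X := p.ε ^ 2 * ‖p.offs (p.tgt e) - p.offs (p.src e)‖ ^ 2 with hX
  have hX0 : 0 ≤ X := by positivity
  refine (abs_le_of_sq_le_sq' ?_ (by positivity)).2
  rw [p.len_sq, ← hX, add_sq]
  have : 2 * p.μ * (X / (2 * p.μ)) = X := by field_simp
  nlinarith [sq_nonneg (X / (2 * p.μ))]

theorem len_le_two (e : p.Cab) : p.len e ≤ 2 * p.μ := by
  have h := p.μ_pos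
  refine (abs_le_of_sq_le_sq' ?_ (by positivity)).2
  rw [p.len_sq]
  have h1 : ‖p.offs (p.tgt e) - p.offs (p.src e)‖ ≤ p.C := by
    linarith [norm_sub_le (p.offs (p.tgt e)) (p.offs (p.src e)), p.norm_offs (p.tgt e),
      p.norm_offs (p.src e), p.hC1]
  have h2 : p.ε * ‖p.offs (p.tgt e) - p.offs (p.src e)‖ ≤ p.μ := by
    have h3 := mul_le_mul_of_nonneg_left h1 p.hε.le
    have h4 : 128 * p.C * p.ε ≤ p.μ := p.hεμ
    have : 0 ≤ p.C * p.ε := mul_nonneg (le_trans (by norm_num) p.hC1) p.hε.le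
    linarith
  have := pow_le_pow_left₀ (by have := p.hε; positivity) h2 2
  nlinarith

end Params

end Vale.Agent.P208.Neg
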