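import Vale.Agent.P208.Neg.Tube
import Vale.Agent.P208.Neg.Gadget

/-! # P208: placing a scaled copy of a block inside a cable -/

open Finset
open scoped RealInnerProductSpace

namespace Vale.Agent.P208.Neg

variable {H : Type} [NormedAddCommGroup H] [InnerProductSpace ℝ H]

theorem ICov.image_similar {S : Set H} {m : ℕ} (h : ICov S m) (f : H → H) {l : ℝ} (hl : 0 < l)
    (hf : ∀ x y, ‖f x - f y‖ = l * ‖x - y‖) : ICov (f '' S) m := by
  classical
  rintro _ ⟨x, hx, rfl⟩ r hr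
  obtain ⟨T, hT, hc⟩ := h x hx (r / l) (div_pos hr hl)
  refine ⟨T.image f, card_image_le.trans hT, ?_⟩
  rintro _ ⟨y, hy, rfl⟩ hyx
  rw [hf] at hyx
  obtain ⟨c, hc1, hc2⟩ := hc y hy (by rw [le_div_iff₀ hl]; linarith)
  refine ⟨f c, mem_image_of_mem f hc1, ?_⟩
  rw [hf]
  calc l * ‖y - c‖ ≤ l * (r / l / 8) := mul_le_mul_of_nonneg_left hc2 hl.le
    _ = r / 8 := by field_simp

namespace Params

variable (p : Params H)

/-- Number of the private block of a cable. -/
noncomputable def blk (e : p.Cab) : ℕ := (Fintype.equivFin p.Cab e : ℕ) + 2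

/-- Similarity sending the unit block onto a cable. -/
noncomputable def place (e : p.Cab) (x : H) : H :=
  p.npt (p.src e) + ⟪x, p.Fr.e⟫ • (p.npt (p.tgt e) - p.npt (p.src e))
    + p.len e • p.Fr.J (p.blk e) (x - ⟪x, p.Fr.e⟫ • p.Fr.e)

theorem inner_lift_block (y : p.L) (e : p.Cab) (w : H) : ⟪p.lift y, p.Fr.J (p.blk e) w⟫ = 0 := by
  have h0 : ∀ x, ⟪p.Fr.J 0 x, p.Fr.J (p.blk e) w⟫ = 0 := fun x =>
    p.Fr.JJ _ _ _ _ (by unfold blk; omega)
  have h1 : ∀ x, ⟪p.Fr.J 1 x, p.Fr.J (p.blk e) w⟫ = 0 := fun x =>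
    p.Fr.JJ _ _ _ _ (by unfold blk; omega)
  rw [lift, q, inner_add_left, real_inner_smul_left, h0, h1, mul_zero, add_zero]

theorem inner_offs_block (v : p.Node) (e : p.Cab) (w : H) : ⟪p.offs v, p.Fr.J (p.blk e) w⟫ = 0 := by
  unfold offs
  cases p.lab v with
  | none => simp
  | some y => rw [real_inner_smul_left, p.inner_lift_block, mul_zero]

theorem place_zero (e : p.Cab) : p.place e 0 = p.npt (p.src e) := by simp [place]

theorem place_e (e : p.Cab) : p.place e p.Fr.e = p.npt (p.tgt e) := by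
  simp [place, p.Fr.ee, p.Fr.he]

theorem place_dist (e : p.Cab) (x y : H) : ‖p.place e x - p.place e y‖ = p.len e * ‖x - y‖ := by
  set z := x - y with hz
  set t := ⟪z, p.Fr.e⟫ with ht
  set w := z - t • p.Fr.e with hw
  set Δ := p.npt (p.tgt e) - p.npt (p.src e) with hΔ
  have h1 : p.place e x - p.place e y = t • Δ + p.len e • p.Fr.J (p.blk e) w := by
    simp only [place, hw, ht, hz, inner_sub_left, map_sub, map_smul]; module
  have hwe : ⟪w, p.Fr.e⟫ = 0 := by
    rw [hw, inner_sub_left, real_inner_smul_left, p.Fr.ee, mul_one, ← ht, sub_self]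
  have h2 : ⟪Δ, p.Fr.J (p.blk e) w⟫ = 0 := by
    rw [hΔ, p.npt_sub, inner_add_left, real_inner_smul_left, real_inner_smul_left, inner_sub_left,
      p.inner_offs_block, p.inner_offs_block, p.Fr.eJ]
    ring
  have h3 : ‖z‖ ^ 2 = t ^ 2 + ‖w‖ ^ 2 := by
    conv_lhs => rw [show z = t • p.Fr.e + w by rw [hw]; abel]
    exact p.Fr.norm_axis_add t hwe
  rw [h1]
  refine (pow_left_inj₀ (norm_nonneg _) (mul_nonneg (p.len_pos e).le (norm_nonneg _)) two_ne_zero).1 ?_
  rw [norm_add_sq_real, real_inner_smul_left, real_inner_smul_right, h2, norm_smul, norm_smul,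
    LinearIsometry.norm_map, Real.norm_eq_abs, Real.norm_eq_abs, abs_of_pos (p.len_pos e),
    show ‖Δ‖ = p.len e from rfl, mul_pow, mul_pow, mul_pow, sq_abs, h3]
  ring

theorem place_inner (e : p.Cab) (x : H) :
    ⟪p.place e x, p.Fr.e⟫ = ((p.slot e : ℝ) + ⟪x, p.Fr.e⟫) * p.μ := by
  simp only [place, inner_add_left, real_inner_smul_left, inner_sub_left, p.npt_e, p.src_tm,
    p.tgt_tm, p.Fr.Je]
  push_cast; ring

/-- Offsets at the start of a cable. -/
noncomputable def offA (e : p.Cab) : H := p.offs (p.src e)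
/-- Offsets at the end of a cable. -/
noncomputable def offB (e : p.Cab) : H := p.offs (p.tgt e)

theorem place_seg (e : p.Cab) (x : H) :
    p.place e x - segpt p.slot p.offA p.offB p.Fr.e p.μ p.ε e ⟪x, p.Fr.e⟫
      = p.len e • p.Fr.J (p.blk e) (x - ⟪x, p.Fr.e⟫ • p.Fr.e) := by
  simp only [place, segpt, qpt, offA, offB, npt, p.src_tm, p.tgt_tm]
  push_cast; module

/-- The cone containing a block. -/
def InCone (x : H) : Prop :=
  0 ≤ ⟪x, p.Fr.e⟫ ∧ ⟪x, p.Fr.e⟫ ≤ 1 ∧
    ‖x - ⟪x, p.Fr.e⟫ • p.Fr.e‖ ≤ p.C * p.ε * min ⟪x, p.Fr.e⟫ (1 - ⟪x, p.Fr.e⟫)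

theorem place_tube (e : p.Cab) {x : H} (hx : p.InCone x) :
    ‖p.place e x - segpt p.slot p.offA p.offB p.Fr.e p.μ p.ε e ⟪x, p.Fr.e⟫‖
      ≤ 2 * p.C * p.ε * p.μ * min ⟪x, p.Fr.e⟫ (1 - ⟪x, p.Fr.e⟫) := by
  rw [p.place_seg, norm_smul, LinearIsometry.norm_map, Real.norm_eq_abs, abs_of_pos (p.len_pos e)]
  calc p.len e * _ ≤ (2 * p.μ) * (p.C * p.ε * min ⟪x, p.Fr.e⟫ (1 - ⟪x, p.Fr.e⟫)) :=
        mul_le_mul (p.len_le_two e) hx.2.2 (norm_nonneg _) (by have := p.μ_pos; positivity)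
    _ = _ := by ring

theorem npt_cone (v : p.Node) : p.InCone (p.npt v) := by
  have hμ := p.μ_pos
  have hC : 0 ≤ p.C := le_trans (by norm_num) p.hC1
  have ht : (p.tm v : ℝ) ≤ p.M := by exact_mod_cast p.tm_le v
  have h1 : (p.tm v : ℝ) * p.μ ≤ 1 := by rw [← p.M_mul]; exact mul_le_mul_of_nonneg_right ht hμ.le
  have hperp : p.npt v - ⟪p.npt v, p.Fr.e⟫ • p.Fr.e = p.ε • p.offs v := by
    rw [p.npt_e, npt]; abel
  refine ⟨by rw [p.npt_e]; positivity, by rw [p.npt_e]; exact h1, ?_⟩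
  rw [hperp, norm_smul, Real.norm_eq_abs, abs_of_pos p.hε, p.npt_e]
  cases hl : p.lab v with
  | none =>
    have : p.offs v = 0 := by unfold offs; rw [hl]
    rw [this, norm_zero, mul_zero]
    exact mul_nonneg (mul_nonneg hC p.hε.le) (le_min (by positivity) (by linarith))
  | some y =>
    obtain ⟨e1, e2⟩ := p.in_of_lab hl
    have htimes := p.times y
    have l1 : (p.K0 : ℝ) ≤ p.tm v := by exact_mod_cast (by omega : p.K0 ≤ p.tm v)
    have l2 : (p.tm v : ℝ) ≤ 2 * p.K0 := by exact_mod_cast (by omega : p.tm v ≤ 2 * p.K0)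
    have hK : (4 * (p.K0 : ℝ)) * p.μ = 1 := by
      have := p.M_mul; simpa [M] using this
    have m1 := mul_le_mul_of_nonneg_right l1 hμ.le
    have m2 := mul_le_mul_of_nonneg_right l2 hμ.le
    calc p.ε * ‖p.offs v‖ ≤ p.ε * (p.C / 8) := mul_le_mul_of_nonneg_left (p.norm_offs v) p.hε.le
      _ = p.C * p.ε * (1 / 8) := by ring
      _ ≤ _ := mul_le_mul_of_nonneg_left (le_min (by linarith) (by linarith)) (mul_nonneg hC p.hε.le)

theorem place_cone (e : p.Cab) {x : H} (hx : p.InCone x) : p.InCone (p.place e x) := by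
  have hμ := p.μ_pos
  have hμ8 := p.μ_le
  have hC : 0 ≤ p.C := le_trans (by norm_num) p.hC1
  obtain ⟨t0, t1, hperp⟩ := hx
  set t := ⟪x, p.Fr.e⟫ with htdef
  have hi : (p.slot e : ℝ) + 1 ≤ p.M := by exact_mod_cast p.slot_lt e
  have hb : 0 ≤ ((p.slot e : ℝ) + t) * p.μ ∧ ((p.slot e : ℝ) + t) * p.μ ≤ 1 := by
    refine ⟨by positivity, ?_⟩
    rw [← p.M_mul]; exact mul_le_mul_of_nonneg_right (by linarith) hμ.le
  refine ⟨by rw [p.place_inner]; exact hb.1, by rw [p.place_inner]; exact hb.2, ?_⟩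
  rw [p.place_inner, ← htdef]
  have hdec : p.place e x - (((p.slot e : ℝ) + t) * p.μ) • p.Fr.e
      = p.ε • qpt p.offA p.offB e t + p.len e • p.Fr.J (p.blk e) (x - t • p.Fr.e) := by
    rw [← p.place_seg e x, ← htdef]; simp only [segpt]; abel
  rw [hdec]
  refine (norm_add_le _ _).trans ?_
  rw [norm_smul, norm_smul, LinearIsometry.norm_map, Real.norm_eq_abs, Real.norm_eq_abs,
    abs_of_pos p.hε, abs_of_pos (p.len_pos e)]
  set m := min t (1 - t) with hm
  have hm0 : 0 ≤ m := le_min t0 (by linarith)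
  have hsum := add_le_add le_rfl (mul_le_mul_of_nonneg_left hperp (p.len_pos e).le)
    (a := p.ε * ‖qpt p.offA p.offB e t‖)
  refine hsum.trans ?_
  have hgen : (∀ y, p.lab (p.src e) = some y ∨ p.lab (p.tgt e) = some y →
      p.K0 ≤ p.slot e + 1 ∧ p.slot e ≤ 2 * p.K0) := by
    intro y hy
    have htimes := p.times y
    rcases hy with hy | hy
    · obtain ⟨e1, e2⟩ := p.in_of_lab hy; rw [p.src_tm] at e1 e2; omega
    · obtain ⟨e1, e2⟩ := p.in_of_lab hy; rw [p.tgt_tm] at e1 e2; omega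
  by_cases hax : p.lab (p.src e) = none ∧ p.lab (p.tgt e) = none
  · have hA : p.offA e = 0 := by unfold offA offs; rw [hax.1]
    have hB : p.offB e = 0 := by unfold offB offs; rw [hax.2]
    have hlen : p.len e = p.μ := by
      refine (pow_left_inj₀ (p.len_pos e).le hμ.le two_ne_zero).1 ?_
      rw [p.len_sq, show p.offs (p.tgt e) = 0 from hB, show p.offs (p.src e) = 0 from hA]
      simp
    rw [hlen, qpt, hA, hB, smul_zero, smul_zero, add_zero, norm_zero, mul_zero, zero_add]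
    calc p.μ * (p.C * p.ε * m) = p.C * p.ε * (p.μ * m) := by ring
      _ ≤ _ := by
        refine mul_le_mul_of_nonneg_left (le_min ?_ ?_) (mul_nonneg hC p.hε.le)
        · have h1 := mul_le_mul_of_nonneg_left (min_le_left t (1 - t)) hμ.le
          have h2 : 0 ≤ (p.slot e : ℝ) * p.μ := by positivity
          linarith
        · have h1 := mul_le_mul_of_nonneg_left (min_le_right t (1 - t)) hμ.le
          have h2 := mul_le_mul_of_nonneg_right hi hμ.le
          rw [p.M_mul] at h2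
          linarith
  · have hy : ∃ y, p.lab (p.src e) = some y ∨ p.lab (p.tgt e) = some y := by
      cases h1 : p.lab (p.src e) with
      | some y => exact ⟨y, Or.inl rfl⟩
      | none =>
        cases h2 : p.lab (p.tgt e) with
        | some y => exact ⟨y, Or.inr rfl⟩
        | none => exact absurd ⟨h1, h2⟩ hax
    obtain ⟨y, hy⟩ := hy
    obtain ⟨l1, l2⟩ := hgen y hy
    have l1' : (p.K0 : ℝ) ≤ p.slot e + 1 := by exact_mod_cast l1
    have l2' : (p.slot e : ℝ) ≤ 2 * p.K0 := by exact_mod_cast l2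
    have hK : (4 * (p.K0 : ℝ)) * p.μ = 1 := by
      have := p.M_mul; simpa [M] using this
    have hq : ‖qpt p.offA p.offB e t‖ ≤ p.C / 8 :=
      norm_qpt (p.norm_offs _) (p.norm_offs _) t0 t1
    have hm1 : m ≤ 1 / 2 := by
      rcases le_total t (1 / 2) with h | h
      · exact (min_le_left _ _).trans h
      · exact (min_le_right _ _).trans (by linarith)
    have h2 : p.len e * (p.C * p.ε * m) ≤ (2 * p.μ) * (p.C * p.ε * (1 / 2)) :=
      mul_le_mul (p.len_le_two e) (mul_le_mul_of_nonneg_left hm1 (mul_nonneg hC p.hε.le))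
        (mul_nonneg (mul_nonneg hC p.hε.le) hm0) (by positivity)
    have m1 := mul_le_mul_of_nonneg_right l1' hμ.le
    have m2 := mul_le_mul_of_nonneg_right l2' hμ.le
    calc p.ε * ‖qpt p.offA p.offB e t‖ + p.len e * (p.C * p.ε * m)
        ≤ p.ε * (p.C / 8) + (2 * p.μ) * (p.C * p.ε * (1 / 2)) :=
          add_le_add (mul_le_mul_of_nonneg_left hq p.hε.le) h2
      _ = p.C * p.ε * (1 / 8 + p.μ) := by ring
      _ ≤ _ := by
        have h3 : 0 ≤ t * p.μ := mul_nonneg t0 hμ.le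
        have h4 : t * p.μ ≤ p.μ := mul_le_of_le_one_left hμ.le t1
        have hμ16 : p.μ ≤ 1 / 16 := by
          have := p.hμC
          have h5 : p.ν / ((p.R * wid (Fintype.card p.Y.ι) p.R (Fintype.card p.Y.ι) + 1 : ℕ) : ℝ) ≤ 1 :=
            div_le_one_of_le₀ (le_trans p.hν1 (by exact_mod_cast Nat.le_add_left 1 _)) (Nat.cast_nonneg _)
          have h6 := mul_le_mul_of_nonneg_right p.hC1 hμ.le
          unfold μ at *
          linarith
        exact mul_le_mul_of_nonneg_left (le_min (by linarith) (by linarith)) (mul_nonneg hC p.hε.le)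

end Params

end Vale.Agent.P208.Neg
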