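import Mathlib

/-! # P208: covering predicates -/

open Finset

namespace Vale.Agent.P208.Neg

variable {H : Type} [NormedAddCommGroup H] [NormedSpace ℝ H]

/-- Every ball (any centre) meets `S` in a set covered by `m` balls of half the radius. -/
def Cov (S : Set H) (m : ℕ) : Prop :=
  ∀ (x : H) (r : ℝ), 0 < r → ∃ T : Finset H, T.card ≤ m ∧
    ∀ y ∈ S, ‖y - x‖ ≤ r → ∃ c ∈ T, ‖y - c‖ ≤ r / 2

/-- Balls centred in `S` are covered by `m` balls of an eighth of the radius. -/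
def ICov (S : Set H) (m : ℕ) : Prop :=
  ∀ x ∈ S, ∀ r : ℝ, 0 < r → ∃ T : Finset H, T.card ≤ m ∧
    ∀ y ∈ S, ‖y - x‖ ≤ r → ∃ c ∈ T, ‖y - c‖ ≤ r / 8

theorem Cov.mono {S S' : Set H} {m m' : ℕ} (h : Cov S m) (hs : S' ⊆ S) (hm : m ≤ m') :
    Cov S' m' := by
  intro x r hr
  obtain ⟨T, hT, hc⟩ := h x r hr
  exact ⟨T, hT.trans hm, fun y hy => hc y (hs hy)⟩

theorem ICov.mono {S S' : Set H} {m m' : ℕ} (h : ICov S m) (hs : S' ⊆ S) (hm : m ≤ m') :
    ICov S' m' := by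
  intro x hx r hr
  obtain ⟨T, hT, hc⟩ := h x (hs hx) r hr
  exact ⟨T, hT.trans hm, fun y hy => hc y (hs hy)⟩

theorem Cov.union {S S' : Set H} {m m' : ℕ} (h : Cov S m) (h' : Cov S' m') :
    Cov (S ∪ S') (m + m') := by
  classical
  intro x r hr
  obtain ⟨T, hT, hc⟩ := h x r hr
  obtain ⟨T', hT', hc'⟩ := h' x r hr
  refine ⟨T ∪ T', (card_union_le _ _).trans (by omega), ?_⟩
  rintro y (hy | hy) hyx
  · obtain ⟨c, h1, h2⟩ := hc y hy hyx; exact ⟨c, mem_union_left _ h1, h2⟩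
  · obtain ⟨c, h1, h2⟩ := hc' y hy hyx; exact ⟨c, mem_union_right _ h1, h2⟩

theorem cov_finset (T : Finset H) : Cov (↑T : Set H) T.card := by
  intro x r hr
  exact ⟨T, le_rfl, fun y hy _ => ⟨y, hy, by rw [sub_self, norm_zero]; linarith⟩⟩

/-- A set inside the image of a finite index set. -/
theorem cov_of_subset_finset {S : Set H} {T : Finset H} {m : ℕ} (hs : S ⊆ ↑T) (hm : T.card ≤ m) :
    Cov S m := (cov_finset T).mono hs hm

theorem cov_singleton (a : H) : Cov ({a} : Set H) 1 := by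
  simpa using cov_finset ({a} : Finset H)

theorem Cov.image_affine {S : Set H} {m : ℕ} (h : Cov S m) (hm : 1 ≤ m) (c : H) (t : ℝ) :
    Cov ((fun v => c + t • v) '' S) m := by
  classical
  intro x r hr
  by_cases ht : t = 0
  · subst ht
    refine ⟨{c}, by simpa using hm, ?_⟩
    rintro _ ⟨v, _, rfl⟩ _
    exact ⟨c, mem_singleton_self _, by simpa using (by linarith : (0:ℝ) ≤ r / 2)⟩
  · have hta : 0 < |t| := abs_pos.2 ht
    obtain ⟨T, hT, hc⟩ := h (t⁻¹ • (x - c)) (r / |t|) (by positivity)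
    refine ⟨T.image fun v => c + t • v, card_image_le.trans hT, ?_⟩
    rintro _ ⟨v, hv, rfl⟩ hvx
    have key : ∀ w : H, ‖c + t • v - (c + t • w)‖ = |t| * ‖v - w‖ := fun w => by
      rw [add_sub_add_left_eq_sub, ← smul_sub, norm_smul, Real.norm_eq_abs]
    have hx : c + t • (t⁻¹ • (x - c)) = x := by rw [smul_inv_smul₀ ht]; abel
    have h1 := key (t⁻¹ • (x - c))
    rw [hx] at h1
    rw [h1] at hvx
    obtain ⟨w, hw, hvw⟩ := hc v hv (by rw [le_div_iff₀ hta]; linarith)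
    refine ⟨_, mem_image_of_mem _ hw, ?_⟩
    rw [key]
    calc |t| * ‖v - w‖ ≤ |t| * (r / |t| / 2) := mul_le_mul_of_nonneg_left hvw hta.le
      _ = r / 2 := by field_simp

/-- Iterated halving. -/
theorem Cov.iter {S : Set H} {m : ℕ} (h : Cov S m) (j : ℕ) :
    ∀ (x : H) (r : ℝ), 0 < r → ∃ T : Finset H, T.card ≤ m ^ j ∧
      ∀ y ∈ S, ‖y - x‖ ≤ r → ∃ c ∈ T, ‖y - c‖ ≤ r / 2 ^ j := by
  classical
  induction j with
  | zero => exact fun x r hr => ⟨{x}, by simp, fun y hy hyx => ⟨x, mem_singleton_self _, by simpa using hyx⟩⟩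
  | succ j ih =>
    intro x r hr
    obtain ⟨T, hT, hc⟩ := ih x r hr
    choose U hU hUc using fun c : H => h c (r / 2 ^ j) (by positivity)
    refine ⟨T.biUnion U, ?_, ?_⟩
    · refine card_biUnion_le.trans ((sum_le_card_nsmul T _ m fun c _ => hU c).trans ?_)
      rw [smul_eq_mul, pow_succ]; exact Nat.mul_le_mul_right m hT
    · intro y hy hyx
      obtain ⟨c, hc1, hc2⟩ := hc y hy hyx
      obtain ⟨d, hd1, hd2⟩ := hUc c y hy hc2
      refine ⟨d, mem_biUnion.2 ⟨c, hc1, hd1⟩, ?_⟩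
      rw [pow_succ, ← div_div]; exact hd2

theorem ICov.cov {S : Set H} {m : ℕ} (h : ICov S m) : Cov S m := by
  intro x r hr
  by_cases hex : ∃ z ∈ S, ‖z - x‖ ≤ r
  · obtain ⟨z, hz, hzx⟩ := hex
    obtain ⟨T, hT, hc⟩ := h z hz (2 * r) (by linarith)
    refine ⟨T, hT, fun y hy hyx => ?_⟩
    have h1 : ‖y - z‖ ≤ 2 * r := by
      have := norm_sub_le_norm_sub_add_norm_sub y x z
      rw [norm_sub_rev x z] at this
      linarith
    obtain ⟨c, hc1, hc2⟩ := hc y hy h1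
    exact ⟨c, hc1, by linarith⟩
  · exact ⟨∅, by simp, fun y hy hyx => absurd ⟨y, hy, hyx⟩ hex⟩

theorem icov_finset (T : Finset H) : ICov (↑T : Set H) T.card := by
  intro x _ r hr
  exact ⟨T, le_rfl, fun y hy _ => ⟨y, hy, by rw [sub_self, norm_zero]; linarith⟩⟩

/-- Centres can be taken in the set at the price of squaring. -/
theorem Cov.centres {S : Set H} {m : ℕ} (h : Cov S m) :
    ∀ x ∈ S, ∀ r > 0, ∃ T : Finset H, (↑T : Set H) ⊆ S ∧ T.card ≤ m ^ 2 ∧
      ∀ y ∈ S, dist y x ≤ r → ∃ c ∈ T, dist y c ≤ r / 2 := by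
  classical
  intro x hx r hr
  obtain ⟨T, hT, hc⟩ := h.iter 2 x r hr
  let pick : H → H := fun c => if hc : ∃ y ∈ S, ‖y - c‖ ≤ r / 2 ^ 2 then hc.choose else x
  refine ⟨T.image pick, ?_, card_image_le.trans hT, ?_⟩
  · intro v hv
    obtain ⟨c, _, rfl⟩ := mem_image.1 (mem_coe.1 hv)
    simp only [pick]
    split_ifs with hh
    · exact hh.choose_spec.1
    · exact hx
  · intro y hy hyx
    rw [dist_eq_norm] at hyx
    obtain ⟨c, hc1, hc2⟩ := hc y hy hyx
    refine ⟨pick c, mem_image_of_mem _ hc1, ?_⟩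
    have hex : ∃ z ∈ S, ‖z - c‖ ≤ r / 2 ^ 2 := ⟨y, hy, hc2⟩
    simp only [pick, dif_pos hex]
    have h1 := hex.choose_spec.2
    have h2 := norm_sub_le_norm_sub_add_norm_sub y c hex.choose
    rw [norm_sub_rev c hex.choose] at h2
    rw [dist_eq_norm]
    norm_num at h1 hc2
    linarith

end Vale.Agent.P208.Neg
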