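import Vale.Agent.P208.Neg.Cov

/-! # P208: frames and forests of points -/

open scoped RealInnerProductSpace

namespace Vale.Agent.P208.Neg

variable (H : Type) [NormedAddCommGroup H] [InnerProductSpace ℝ H]

/-- A unit vector and isometric self-copies of the space orthogonal to it and to each other. -/
structure Frame where
  e : H
  he : ‖e‖ = 1
  J : ℕ → H →ₗᵢ[ℝ] H
  Je : ∀ i x, ⟪J i x, e⟫ = 0
  JJ : ∀ i j x y, i ≠ j → ⟪J i x, J j y⟫ = 0

/-- Finitely many labelled points, each with its chain of ancestors. -/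
structure Forest where
  ι : Type
  fin : Fintype ι
  pt : ι → H
  anc : ι → Finset ι
  refl : ∀ v, v ∈ anc v
  trans : ∀ u v, u ∈ anc v → anc u ⊆ anc v
  antisymm : ∀ u v, u ∈ anc v → v ∈ anc u → u = v
  chain : ∀ u v w, u ∈ anc w → v ∈ anc w → u ∈ anc v ∨ v ∈ anc u
  inj : ∀ v, Set.InjOn pt (↑(anc v) : Set ι)

variable {H}

instance (F : Forest H) : Fintype F.ι := F.fin

/-- No map into `ℝ^k` has distortion `D` on all ancestor pairs. -/
def Forest.NoEmb (F : Forest H) (k : ℕ) (D : ℝ) : Prop :=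
  ∀ g : F.ι → EuclideanSpace ℝ (Fin k), ∃ v, ∃ u ∈ F.anc v, u ≠ v ∧
    ¬(‖F.pt v - F.pt u‖ ≤ ‖g v - g u‖ ∧ ‖g v - g u‖ ≤ D * ‖F.pt v - F.pt u‖)

/-- Every chain of ancestors is doubling. -/
def Forest.BagCov (F : Forest H) (Λ : ℕ) : Prop :=
  ∀ v, Cov (F.pt '' (↑(F.anc v) : Set F.ι)) Λ

theorem Forest.pt_ne (F : Forest H) {u v : F.ι} (hu : u ∈ F.anc v) (hne : u ≠ v) :
    F.pt u ≠ F.pt v := fun h => hne (F.inj v (Finset.mem_coe.2 hu) (Finset.mem_coe.2 (F.refl v)) h)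

namespace Frame

variable (F : Frame H)

theorem eJ (i : ℕ) (x : H) : ⟪F.e, F.J i x⟫ = 0 := by rw [real_inner_comm]; exact F.Je i x

theorem ee : ⟪F.e, F.e⟫ = (1 : ℝ) := by rw [real_inner_self_eq_norm_sq, F.he]; norm_num

theorem norm_axis_add (t : ℝ) {z : H} (hz : ⟪z, F.e⟫ = 0) :
    ‖t • F.e + z‖ ^ 2 = t ^ 2 + ‖z‖ ^ 2 := by
  rw [norm_add_sq_real, real_inner_smul_left, real_inner_comm, hz, norm_smul, F.he, mul_one,
    Real.norm_eq_abs, sq_abs]; ring

end Frame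

end Vale.Agent.P208.Neg
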