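import Vale.Agent.P208.Neg.Cov

/-! # P208: covering a union of thin tubes around slanted segments -/

open Finset
open scoped RealInnerProductSpace

namespace Vale.Agent.P208.Neg

/-- Absolute covering bound produced by `tube`. -/
def tubeBound (L : ℕ) : ℕ := 33 + 5 * 130 * L ^ 6

theorem min_le_add_abs (a b : ℝ) : min a (1 - a) ≤ min b (1 - b) + |a - b| := by
  rw [← min_add_add_right]
  refine min_le_min ?_ ?_ <;> linarith [le_abs_self (a - b), neg_abs_le (a - b)]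

variable {H : Type} [NormedAddCommGroup H] [InnerProductSpace ℝ H]

section
variable {e : H} {ι : Type} (slot : ι → ℕ) (A B : ι → H)

/-- Point of parameter `s` on the offset segment `j`. -/
def qpt (j : ι) (s : ℝ) : H := (1 - s) • A j + s • B j

/-- Point of parameter `s` on the slanted segment `j`. -/
def segpt (e : H) (μ ε : ℝ) (j : ι) (s : ℝ) : H :=
  (((slot j : ℝ) + s) * μ) • e + ε • qpt A B j s

/-- The hypothesis that each piece lies in the thin tube around its segment. -/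
def InTubes (e : H) (μ ε C : ℝ) (E : Finset ι) (P : ι → Set H) : Prop :=
  ∀ j ∈ E, ∀ x ∈ P j, ∃ s : ℝ, 0 ≤ s ∧ s ≤ 1 ∧ ⟪x, e⟫ = ((slot j : ℝ) + s) * μ ∧
    ‖x - segpt slot A B e μ ε j s‖ ≤ 2 * C * ε * μ * min s (1 - s)

variable {slot A B}

theorem abs_time (he : ‖e‖ = 1) {x y : H} {ρ : ℝ} (hy : ‖y - x‖ ≤ ρ) :
    |⟪y, e⟫ - ⟪x, e⟫| ≤ ρ := by
  rw [← inner_sub_left]
  exact le_trans (by simpa [he] using abs_real_inner_le_norm (y - x) e) hy

theorem norm_qpt {j : ι} {C s : ℝ} (hA : ‖A j‖ ≤ C) (hB : ‖B j‖ ≤ C) (h0 : 0 ≤ s) (h1 : s ≤ 1) :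
    ‖qpt A B j s‖ ≤ C := by
  refine (norm_add_le _ _).trans ?_
  rw [norm_smul, norm_smul, Real.norm_eq_abs, Real.norm_eq_abs, abs_of_nonneg h0,
    abs_of_nonneg (by linarith : (0:ℝ) ≤ 1 - s)]
  linarith [mul_le_mul_of_nonneg_left hA (by linarith : (0:ℝ) ≤ 1 - s), mul_le_mul_of_nonneg_left hB h0]

theorem qpt_sub_le {j : ι} {C : ℝ} (hA : ‖A j‖ ≤ C) (hB : ‖B j‖ ≤ C) (s s' : ℝ) :
    ‖qpt A B j s - qpt A B j s'‖ ≤ 2 * C * |s - s'| := by
  have : qpt A B j s - qpt A B j s' = (s - s') • (B j - A j) := by simp only [qpt]; module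
  rw [this, norm_smul, Real.norm_eq_abs, mul_comm]
  refine mul_le_mul_of_nonneg_right ?_ (abs_nonneg _)
  linarith [norm_sub_le (B j) (A j)]

theorem tube_large (he : ‖e‖ = 1) {E : Finset ι} {P : ι → Set H} {Z : Set H} {C μ ε ρ : ℝ} {Λ : ℕ}
    (hC : 1 ≤ C) (hμ : 0 < μ) (hμ1 : μ ≤ 1) (hε : 0 < ε) (hεμ : 128 * C * ε ≤ μ) (hρμ : μ ≤ ρ)
    (hA : ∀ j ∈ E, ‖A j‖ ≤ C) (hB : ∀ j ∈ E, ‖B j‖ ≤ C) (hZ : ∀ x ∈ Z, ∃ j ∈ E, x ∈ P j)
    (hP : InTubes slot A B e μ ε C E P) (hΛ : 33 ≤ Λ) (x : H) :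
    ∃ T : Finset H, T.card ≤ Λ ∧ ∀ y ∈ Z, ‖y - x‖ ≤ ρ → ∃ c ∈ T, ‖y - c‖ ≤ ρ / 8 := by
  classical
  have hρ : 0 < ρ := hμ.trans_le hρμ
  set t0 := ⟪x, e⟫ with ht0
  refine ⟨(range 33).image fun k : ℕ => (t0 - ρ + (k : ℝ) * (ρ / 16)) • e,
    card_image_le.trans (by simpa using hΛ), ?_⟩
  intro y hy hyx
  obtain ⟨j, hj, hyP⟩ := hZ y hy
  obtain ⟨s', h0', h1', hyt, hys⟩ := hP j hj y hyP
  have habs := abs_le.1 (abs_time he hyx)
  set w : ℝ := (⟪y, e⟫ - (t0 - ρ)) / (ρ / 16) with hw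
  have hw0 : 0 ≤ w := div_nonneg (by linarith) (by linarith)
  have hw32 : w ≤ 32 := by rw [hw, div_le_iff₀ (by linarith)]; linarith
  have hk : ⌊w⌋₊ < 33 := by rw [Nat.floor_lt hw0]; push_cast; linarith
  refine ⟨_, mem_image_of_mem _ (mem_range.2 hk), ?_⟩
  have hfl := Nat.floor_le hw0
  have hfl' := Nat.lt_floor_add_one w
  set k : ℝ := (⌊w⌋₊ : ℝ)
  have hT : |⟪y, e⟫ - (t0 - ρ + k * (ρ / 16))| ≤ ρ / 16 := by
    have hwe : w * (ρ / 16) = ⟪y, e⟫ - (t0 - ρ) := by rw [hw]; field_simp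
    have e1 := mul_le_mul_of_nonneg_right hfl (by linarith : (0:ℝ) ≤ ρ / 16)
    have e2 := mul_le_mul_of_nonneg_right hfl'.le (by linarith : (0:ℝ) ≤ ρ / 16)
    rw [abs_le]; constructor <;> linarith
  have hoff : ‖y - ⟪y, e⟫ • e‖ ≤ ρ / 32 := by
    have h1 : y - ⟪y, e⟫ • e = (y - segpt slot A B e μ ε j s') + ε • qpt A B j s' := by
      simp only [segpt]; rw [hyt]; abel
    rw [h1]
    refine (norm_add_le _ _).trans ?_
    rw [norm_smul, Real.norm_eq_abs, abs_of_pos hε]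
    have hm' : min s' (1 - s') ≤ 1 := (min_le_left _ _).trans h1'
    have h2 : 2 * C * ε * μ * min s' (1 - s') ≤ 2 * C * ε := by
      have : 0 ≤ 2 * C * ε := by positivity
      have hh : μ * min s' (1 - s') ≤ 1 := by
        calc μ * min s' (1 - s') ≤ μ * 1 := mul_le_mul_of_nonneg_left hm' hμ.le
          _ ≤ 1 := by linarith
      calc 2 * C * ε * μ * min s' (1 - s') = 2 * C * ε * (μ * min s' (1 - s')) := by ring
        _ ≤ 2 * C * ε * 1 := mul_le_mul_of_nonneg_left hh this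
        _ = _ := by ring
    have h3 : ε * ‖qpt A B j s'‖ ≤ ε * C :=
      mul_le_mul_of_nonneg_left (norm_qpt (hA j hj) (hB j hj) h0' h1') hε.le
    linarith
  have h4 : y - (t0 - ρ + k * (ρ / 16)) • e =
      (y - ⟪y, e⟫ • e) + (⟪y, e⟫ - (t0 - ρ + k * (ρ / 16))) • e := by module
  rw [h4]
  refine (norm_add_le _ _).trans ?_
  rw [norm_smul, he, mul_one, Real.norm_eq_abs]
  linarith

theorem tube_small (he : ‖e‖ = 1) {E : Finset ι} {P : ι → Set H} {Z : Set H} {C μ ε κ ρ : ℝ} {Λ : ℕ}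
    (hC : 1 ≤ C) (hμ : 0 < μ) (hε : 0 < ε) (hκ : 0 < κ) (hκ1 : κ ≤ 1)
    (hεκ : 2048 * C * C * ε ≤ κ) (hμκ : 1024 * C * μ ≤ κ) (hεC : 128 * C * ε ≤ 1)
    (hA : ∀ j ∈ E, ‖A j‖ ≤ C) (hB : ∀ j ∈ E, ‖B j‖ ≤ C) (hZ : ∀ x ∈ Z, ∃ j ∈ E, x ∈ P j)
    (hP : InTubes slot A B e μ ε C E P)
    (hsep : ∀ j ∈ E, ∀ j' ∈ E, j ≠ j' → slot j = slot j' → ∀ s : ℝ, 0 ≤ s → s ≤ 1 →
      κ * min s (1 - s) ≤ ‖qpt A B j s - qpt A B j' s‖)
    {x : H} {jx : ι} (hjx : jx ∈ E) (hxP : x ∈ P jx) {s : ℝ} (hs0 : 0 ≤ s) (hs1 : s ≤ 1)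
    (hxt : ⟪x, e⟫ = ((slot jx : ℝ) + s) * μ)
    (hxs : ‖x - segpt slot A B e μ ε jx s‖ ≤ 2 * C * ε * μ * min s (1 - s))
    (hρ : 0 < ρ) (hsmall : ρ < 128 * C * ε * μ * min s (1 - s)) (hpiece : ICov (P jx) Λ) :
    ∃ T : Finset H, T.card ≤ Λ ∧ ∀ y ∈ Z, ‖y - x‖ ≤ ρ → ∃ c ∈ T, ‖y - c‖ ≤ ρ / 8 := by
  classical
  set m := min s (1 - s) with hmdef
  have hm0 : 0 ≤ m := le_min hs0 (by linarith)
  obtain ⟨T, hT, hc⟩ := hpiece x hxP ρ hρ
  refine ⟨T, hT, fun y hy hyx => hc y ?_ hyx⟩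
  obtain ⟨j, hj, hyP⟩ := hZ y hy
  by_contra hne
  have hjne : j ≠ jx := fun h => hne (h ▸ hyP)
  obtain ⟨s', h0', h1', hyt, hys⟩ := hP j hj y hyP
  have habs := abs_time he hyx
  rw [hyt, hxt] at habs
  have hmpos : 0 < m := by
    by_contra h
    have : m = 0 := le_antisymm (not_lt.1 h) hm0
    rw [this, mul_zero] at hsmall; linarith
  have hρm : ρ < μ * m := by
    calc ρ < 128 * C * ε * μ * m := hsmall
      _ = 128 * C * ε * (μ * m) := by ring
      _ ≤ 1 * (μ * m) := mul_le_mul_of_nonneg_right hεC (by positivity)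
      _ = μ * m := one_mul _
  have hsl : slot j = slot jx := by
    by_contra h
    rcases Nat.lt_or_gt_of_ne h with h | h
    · have : (slot j : ℝ) + 1 ≤ slot jx := by exact_mod_cast h
      have e1 := mul_le_mul_of_nonneg_right this hμ.le
      have e2 := mul_le_mul_of_nonneg_left (min_le_left s (1 - s)) hμ.le
      have e3 := mul_le_mul_of_nonneg_left h1' hμ.le
      linarith [(abs_le.1 habs).1]
    · have : (slot jx : ℝ) + 1 ≤ slot j := by exact_mod_cast h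
      have e1 := mul_le_mul_of_nonneg_right this hμ.le
      have e2 := mul_le_mul_of_nonneg_left (min_le_right s (1 - s)) hμ.le
      have e3 := mul_le_mul_of_nonneg_left h0' hμ.le
      linarith [(abs_le.1 habs).2]
  rw [hsl, ← sub_mul, add_sub_add_left_eq_sub, abs_mul, abs_of_pos hμ] at habs
  have hds : |s' - s| ≤ 128 * C * ε * m := by
    refine le_of_mul_le_mul_right (habs.trans (hsmall.le.trans (le_of_eq ?_))) hμ
    ring
  have hsep' := hsep j hj jx hjx hjne hsl s' h0' h1'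
  have hm' := min_le_add_abs s s'
  rw [abs_sub_comm s s', ← hmdef] at hm'
  set m' := min s' (1 - s') with hm'def
  have hm'' := min_le_add_abs s' s
  rw [← hm'def, ← hmdef] at hm''
  have hseg : ‖segpt slot A B e μ ε j s' - segpt slot A B e μ ε jx s‖ ≤ ρ + 2 * C * ε * μ * m' + 2 * C * ε * μ * m := by
    have : segpt slot A B e μ ε j s' - segpt slot A B e μ ε jx s = (y - x) - (y - segpt slot A B e μ ε j s') + (x - segpt slot A B e μ ε jx s) := by abel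
    rw [this]
    refine (norm_add_le _ _).trans ?_
    linarith [norm_sub_le (y - x) (y - segpt slot A B e μ ε j s'), hys, hxs]
  have hperp : ε * ‖qpt A B j s' - qpt A B jx s‖ ≤ ‖segpt slot A B e μ ε j s' - segpt slot A B e μ ε jx s‖ + |s' - s| * μ := by
    have h5 : ε • (qpt A B j s' - qpt A B jx s) = (segpt slot A B e μ ε j s' - segpt slot A B e μ ε jx s) - ((s' - s) * μ) • e := by
      simp only [segpt]; rw [hsl]; module
    have h6 : ‖ε • (qpt A B j s' - qpt A B jx s)‖ = ε * ‖qpt A B j s' - qpt A B jx s‖ := by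
      rw [norm_smul, Real.norm_eq_abs, abs_of_pos hε]
    rw [← h6, h5]
    refine (norm_sub_le _ _).trans ?_
    rw [norm_smul, he, mul_one, Real.norm_eq_abs, abs_mul, abs_of_pos hμ]
  have hq2 := qpt_sub_le (hA jx hjx) (hB jx hjx) s' s
  have htri := norm_sub_le_norm_sub_add_norm_sub (qpt A B j s') (qpt A B jx s) (qpt A B jx s')
  rw [norm_sub_rev (qpt A B jx s) (qpt A B jx s')] at htri
  -- combine
  have e1 : κ * m' ≤ ‖qpt A B j s' - qpt A B jx s‖ + 2 * C * |s' - s| := by linarith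
  have e2 : ε * (κ * m') ≤ 2 * ρ + 2 * C * ε * μ * m' + 2 * C * ε * μ * m
      + ε * (2 * C * |s' - s|) := by
    have := mul_le_mul_of_nonneg_left e1 hε.le
    have hρs : |s' - s| * μ ≤ ρ := habs
    linarith
  have e3 : ε * (2 * C * |s' - s|) ≤ ε * m * (κ / 8) := by
    calc ε * (2 * C * |s' - s|) ≤ ε * (2 * C * (128 * C * ε * m)) :=
          mul_le_mul_of_nonneg_left (mul_le_mul_of_nonneg_left hds (by linarith)) hε.le
      _ = ε * m * (256 * C * C * ε) := by ring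
      _ ≤ ε * m * (κ / 8) := mul_le_mul_of_nonneg_left (by linarith) (by positivity)
  have hm2 : |s' - s| ≤ m / 16 := by
    refine hds.trans ?_
    have h7 : 128 * C * ε ≤ 1 / 16 := by
      linarith [mul_le_mul_of_nonneg_left hC (by positivity : (0:ℝ) ≤ 2048 * C * ε)]
    have := mul_le_mul_of_nonneg_right h7 hm0
    linarith
  have e4 : m / 2 ≤ m' ∧ m' ≤ 2 * m := ⟨by linarith, by linarith⟩
  have e5 : 2 * ρ + 2 * C * ε * μ * m' + 2 * C * ε * μ * m ≤ ε * m * (κ / 3) := by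
    have : 2 * C * ε * μ * m' ≤ 4 * C * ε * μ * m := by
      linarith [mul_le_mul_of_nonneg_left e4.2 (by positivity : (0:ℝ) ≤ 2 * C * ε * μ)]
    calc 2 * ρ + 2 * C * ε * μ * m' + 2 * C * ε * μ * m
        ≤ 2 * (128 * C * ε * μ * m) + 6 * C * ε * μ * m := by linarith
      _ = ε * m * (262 * C * μ) := by ring
      _ ≤ ε * m * (κ / 3) := mul_le_mul_of_nonneg_left (by linarith) (by positivity)
  have e6 : ε * m * (κ / 2) ≤ ε * (κ * m') := by
    have := mul_le_mul_of_nonneg_left e4.1 (by positivity : (0:ℝ) ≤ ε * κ)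
    linarith
  have : 0 < ε * m * κ := by positivity
  linarith

theorem tube_mid (he : ‖e‖ = 1) {E : Finset ι} {P : ι → Set H} {Z : Set H} {C μ ε ρ : ℝ} {L Λ : ℕ}
    (hC : 1 ≤ C) (hμ : 0 < μ) (hμ1 : μ ≤ 1) (hε : 0 < ε) (hεμ : 128 * C * ε ≤ μ)
    (hA : ∀ j ∈ E, ‖A j‖ ≤ C) (hB : ∀ j ∈ E, ‖B j‖ ≤ C) (hZ : ∀ x ∈ Z, ∃ j ∈ E, x ∈ P j)
    (hP : InTubes slot A B e μ ε C E P)
    (hslice : ∀ (i : ℕ) (s : ℝ), 0 ≤ s → s ≤ 1 →
      Cov {v : H | ∃ j ∈ E, slot j = i ∧ v = qpt A B j s} L)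
    {x : H} {jx : ι} {s : ℝ} (hs0 : 0 ≤ s) (hs1 : s ≤ 1)
    (hxt : ⟪x, e⟫ = ((slot jx : ℝ) + s) * μ)
    (hρ : 0 < ρ) (hρμ : ρ < μ) (hbig : 128 * C * ε * μ * min s (1 - s) ≤ ρ) (hΛ : 5 * 130 * L ^ 6 ≤ Λ) :
    ∃ T : Finset H, T.card ≤ Λ ∧ ∀ y ∈ Z, ‖y - x‖ ≤ ρ → ∃ c ∈ T, ‖y - c‖ ≤ ρ / 8 := by
  classical
  set m := min s (1 - s) with hmdef
  have hm0 : 0 ≤ m := le_min hs0 (by linarith)
  set t0 := ⟪x, e⟫ with ht0
  have ht0' : 0 ≤ t0 := by rw [hxt]; positivity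
  set o : H := x - t0 • e with ho
  let sj : ℕ → ℕ → ℝ := fun i k =>
    max 0 (min 1 ((t0 - ρ) / μ - i + (k : ℝ) * (ρ / (64 * μ))))
  have hsj : ∀ i k, 0 ≤ sj i k ∧ sj i k ≤ 1 := fun i k =>
    ⟨le_max_left _ _, max_le zero_le_one (min_le_left _ _)⟩
  have hcov := fun i k => (hslice i (sj i k) (hsj i k).1 (hsj i k).2).iter 6 (ε⁻¹ • o)
    (3 * ρ / ε) (by positivity)
  choose U hU hUc using hcov
  set i0 : ℕ := ⌊t0 / μ⌋₊ with hi0
  refine ⟨((Icc (i0 - 2) (i0 + 2)) ×ˢ range 130).biUnion (fun p => (U p.1 p.2).image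
    (fun c => (((p.1 : ℝ) + sj p.1 p.2) * μ) • e + ε • c)), ?_, ?_⟩
  · refine card_biUnion_le.trans ((sum_le_card_nsmul _ _ (L ^ 6)
      fun p _ => card_image_le.trans (hU p.1 p.2)).trans ?_)
    rw [smul_eq_mul, card_product, card_range, Nat.card_Icc]
    have h5 : (i0 + 2 + 1 - (i0 - 2)) ≤ 5 := by omega
    have := Nat.mul_le_mul_right (L ^ 6) (Nat.mul_le_mul_right 130 h5)
    omega
  · intro y hy hyx
    obtain ⟨j, hj, hyP⟩ := hZ y hy
    obtain ⟨s', h0', h1', hyt, hys⟩ := hP j hj y hyP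
    have habs := abs_time he hyx
    rw [← ht0, hyt] at habs
    set i := slot j with hi
    have hminle : μ * min s' (1 - s') ≤ μ * m + ρ := by
      rcases lt_trichotomy i (slot jx) with h | h | h
      · have h1 : ((i : ℕ) : ℝ) + 1 ≤ slot jx := by exact_mod_cast h
        have h2 := (abs_le.1 habs).1
        rw [hxt] at h2
        have e1 := mul_le_mul_of_nonneg_right h1 hμ.le
        have e2 := mul_le_mul_of_nonneg_left (min_le_right s' (1 - s')) hμ.le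
        have e3 := mul_le_mul_of_nonneg_left hs0 hμ.le
        have e4 := mul_nonneg hμ.le hm0
        linarith
      · have h1 := min_le_add_abs s' s
        rw [← hmdef] at h1
        have h2 := habs
        rw [hxt, h, ← sub_mul, add_sub_add_left_eq_sub, abs_mul, abs_of_pos hμ] at h2
        have e1 := mul_le_mul_of_nonneg_left h1 hμ.le
        linarith
      · have h1 : (slot jx : ℝ) + 1 ≤ (i : ℕ) := by exact_mod_cast h
        have h2 := (abs_le.1 habs).2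
        rw [hxt] at h2
        have e1 := mul_le_mul_of_nonneg_right h1 hμ.le
        have e2 := mul_le_mul_of_nonneg_left (min_le_left s' (1 - s')) hμ.le
        have e3 := mul_le_mul_of_nonneg_left hs1 hμ.le
        have e4 := mul_nonneg hμ.le hm0
        linarith
    have herr : ‖y - segpt slot A B e μ ε j s'‖ ≤ ρ / 32 := by
      refine hys.trans ?_
      have h1 := mul_le_mul_of_nonneg_left hminle (by positivity : (0:ℝ) ≤ 2 * C * ε)
      have h2 : 128 * C * ε * ρ ≤ 1 * ρ := mul_le_mul_of_nonneg_right (hεμ.trans hμ1) hρ.le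
      linarith
    have ha := abs_le.1 habs
    set w : ℝ := (s' - ((t0 - ρ) / μ - (i : ℕ))) / (ρ / (64 * μ)) with hw
    have hwb : 0 ≤ w ∧ w ≤ 128 := by
      have e1 : (s' - ((t0 - ρ) / μ - (i : ℕ))) * μ = ((i : ℝ) + s') * μ - (t0 - ρ) := by
        field_simp; ring
      refine ⟨div_nonneg ?_ (by positivity), ?_⟩
      · exact nonneg_of_mul_nonneg_left (by rw [e1]; linarith) hμ
      · rw [hw, div_le_iff₀ (by positivity)]
        refine le_of_mul_le_mul_right ?_ hμ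
        rw [e1]
        have : (128 : ℝ) * (ρ / (64 * μ)) * μ = 2 * ρ := by field_simp; norm_num
        linarith
    have hk : ⌊w⌋₊ < 130 := by rw [Nat.floor_lt hwb.1]; push_cast; linarith [hwb.2]
    set k := ⌊w⌋₊ with hkdef
    have hds : |s' - sj i k| * μ ≤ ρ / 64 := by
      have hfl := Nat.floor_le hwb.1
      have hfl' := Nat.lt_floor_add_one w
      rw [← hkdef] at hfl hfl'
      set v := (t0 - ρ) / μ - (i : ℕ) + (k : ℝ) * (ρ / (64 * μ)) with hv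
      have hδ : 0 < ρ / (64 * μ) := by positivity
      have hwe : w * (ρ / (64 * μ)) = s' - ((t0 - ρ) / μ - (i : ℕ)) := by
        rw [hw]; field_simp
      have hv1 : v ≤ s' := by rw [hv]; linarith [mul_le_mul_of_nonneg_right hfl hδ.le]
      have hv2 : s' - ρ / (64 * μ) ≤ v := by rw [hv]; linarith [mul_le_mul_of_nonneg_right hfl'.le hδ.le]
      have h3 : |s' - sj i k| ≤ ρ / (64 * μ) := by
        change |s' - max 0 (min 1 v)| ≤ _
        rw [min_eq_right (hv1.trans h1'), abs_le]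
        constructor
        · linarith [max_le (h0' : (0:ℝ) ≤ s') hv1]
        · linarith [le_max_right 0 v]
      calc |s' - sj i k| * μ ≤ ρ / (64 * μ) * μ := mul_le_mul_of_nonneg_right h3 hμ.le
        _ = ρ / 64 := by field_simp
    have hqd' : ε * ‖qpt A B j s' - qpt A B j (sj i k)‖ ≤ ρ / 64 := by
      have h1 := mul_le_mul_of_nonneg_left (qpt_sub_le (hA j hj) (hB j hj) s' (sj i k)) hε.le
      have h2 : 2 * C * ε * |s' - sj i k| ≤ μ * |s' - sj i k| :=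
        mul_le_mul_of_nonneg_right (by linarith [mul_nonneg (le_trans zero_le_one hC) hε.le]) (abs_nonneg _)
      linarith
    have hoff : ‖qpt A B j (sj i k) - ε⁻¹ • o‖ ≤ 3 * ρ / ε := by
      rw [le_div_iff₀ hε, mul_comm]
      have h1 : ε * ‖qpt A B j (sj i k) - ε⁻¹ • o‖ = ‖ε • qpt A B j (sj i k) - o‖ := by
        rw [← abs_of_pos hε, ← Real.norm_eq_abs, ← norm_smul, smul_sub,
          Real.norm_eq_abs, abs_of_pos hε, smul_inv_smul₀ hε.ne']
      rw [h1]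
      have h2 : ε • qpt A B j (sj i k) - o = (y - x) - (((((i:ℕ):ℝ) + s') * μ) - t0) • e
          - (y - segpt slot A B e μ ε j s') - ε • (qpt A B j s' - qpt A B j (sj i k)) := by
        simp only [segpt, ho]; rw [← hi]; module
      rw [h2]
      refine (norm_sub_le _ _).trans ?_
      rw [norm_smul, Real.norm_eq_abs, abs_of_pos hε]
      have h3 := norm_sub_le ((y - x) - (((((i:ℕ):ℝ) + s') * μ) - t0) • e) (y - segpt slot A B e μ ε j s')
      have h4 := norm_sub_le (y - x) ((((((i:ℕ):ℝ) + s') * μ) - t0) • e)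
      rw [norm_smul, he, mul_one, Real.norm_eq_abs] at h4
      linarith
    obtain ⟨c, hc1, hc2⟩ := hUc i k _ ⟨j, hj, hi.symm, rfl⟩ hoff
    refine ⟨(((i : ℝ) + sj i k) * μ) • e + ε • c,
      mem_biUnion.2 ⟨(i, k), mem_product.2 ⟨?_, mem_range.2 hk⟩, mem_image_of_mem _ hc1⟩, ?_⟩
    · rw [mem_Icc]
      have h1 : (i0 : ℝ) ≤ t0 / μ := Nat.floor_le (by positivity)
      have h2 : t0 / μ < i0 + 1 := Nat.lt_floor_add_one _
      rw [le_div_iff₀ hμ] at h1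
      rw [div_lt_iff₀ hμ] at h2
      have h3 : ((i0 : ℕ) : ℝ) < (i : ℕ) + 3 := by
        by_contra hcon
        linarith [mul_le_mul_of_nonneg_right (not_lt.1 hcon) hμ.le, mul_le_mul_of_nonneg_right h1' hμ.le, ha.1, ha.2]
      have h4 : ((i : ℕ) : ℝ) < (i0 : ℕ) + 3 := by
        by_contra hcon
        linarith [mul_le_mul_of_nonneg_right (not_lt.1 hcon) hμ.le, mul_nonneg h0' hμ.le, ha.1, ha.2]
      have h3' : i0 < i + 3 := by exact_mod_cast h3
      have h4' : i < i0 + 3 := by exact_mod_cast h4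
      omega
    · have h5 : y - ((((i : ℕ) : ℝ) + sj i k) * μ) • e - ε • c
          = (y - segpt slot A B e μ ε j s') + ((s' - sj i k) * μ) • e + ε • (qpt A B j s' - qpt A B j (sj i k))
            + ε • (qpt A B j (sj i k) - c) := by
        simp only [segpt]; rw [← hi]; module
      rw [← sub_sub, h5]
      refine (norm_add₄_le ..).trans ?_
      simp only [norm_smul, he, mul_one, Real.norm_eq_abs, abs_mul, abs_of_pos hμ, abs_of_pos hε]
      have h6 := mul_le_mul_of_nonneg_left hc2 hε.le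
      have h7 : ε * (3 * ρ / ε / 2 ^ 6) = 3 * ρ / 64 := by field_simp; norm_num
      linarith


end

theorem tube {e : H} (he : ‖e‖ = 1) {ι : Type} {E : Finset ι} {slot : ι → ℕ} {A B : ι → H}
    {P : ι → Set H} {Z : Set H} {C μ ε κ : ℝ} {L Λ : ℕ}
    (hC : 1 ≤ C) (hμ : 0 < μ) (hμ1 : μ ≤ 1) (hε : 0 < ε) (hκ : 0 < κ) (hκ1 : κ ≤ 1)
    (hεμ : 128 * C * ε ≤ μ) (hεκ : 2048 * C * C * ε ≤ κ) (hμκ : 1024 * C * μ ≤ κ)
    (hA : ∀ j ∈ E, ‖A j‖ ≤ C) (hB : ∀ j ∈ E, ‖B j‖ ≤ C)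
    (hZ : ∀ x ∈ Z, ∃ j ∈ E, x ∈ P j) (hP : InTubes slot A B e μ ε C E P)
    (hsep : ∀ j ∈ E, ∀ j' ∈ E, j ≠ j' → slot j = slot j' → ∀ s : ℝ, 0 ≤ s → s ≤ 1 →
      κ * min s (1 - s) ≤ ‖qpt A B j s - qpt A B j' s‖)
    (hslice : ∀ (i : ℕ) (s : ℝ), 0 ≤ s → s ≤ 1 →
      Cov {v : H | ∃ j ∈ E, slot j = i ∧ v = qpt A B j s} L)
    (hpiece : ∀ j ∈ E, ICov (P j) Λ) (hΛ : tubeBound L ≤ Λ) : ICov Z Λ := by
  intro x hx ρ hρ
  obtain ⟨jx, hjx, hxP⟩ := hZ x hx
  obtain ⟨s, hs0, hs1, hxt, hxs⟩ := hP jx hjx x hxP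
  unfold tubeBound at hΛ
  rcases le_or_gt μ ρ with hρμ | hρμ
  · exact tube_large he hC hμ hμ1 hε hεμ hρμ hA hB hZ hP (by omega) x
  rcases lt_or_ge ρ (128 * C * ε * μ * min s (1 - s)) with hsmall | hbig
  · exact tube_small he hC hμ hε hκ hκ1 hεκ hμκ (hεμ.trans hμ1) hA hB hZ hP hsep hjx hxP hs0 hs1
      hxt hxs hρ hsmall (hpiece jx hjx)
  · exact tube_mid he hC hμ hμ1 hε hεμ hA hB hZ hP hslice hs0 hs1 hxt hρ hρμ hbig (by omega)

end Vale.Agent.P208.Neg
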