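import Vale.Agent.P208.Neg.Gadget
import Vale.Agent.P208.Neg.Tube

/-! # P208: separation and covering of the slices of a gadget -/

open Finset
open scoped RealInnerProductSpace

namespace Vale.Agent.P208.Neg.Params

variable {H : Type} [NormedAddCommGroup H] [InnerProductSpace ℝ H] (p : Params H)

theorem coef_add (y : p.L) (u v : H) : p.coef y (u + v) = p.coef y u + p.coef y v := by
  simp only [coef, inner_add_left, add_div]

theorem coef_sub (y : p.L) (u v : H) : p.coef y (u - v) = p.coef y u - p.coef y v := by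
  simp only [coef, inner_sub_left, sub_div]

theorem coef_smul (y : p.L) (c : ℝ) (v : H) : p.coef y (c • v) = c * p.coef y v := by
  simp only [coef, real_inner_smul_left, mul_div_assoc]

theorem coef_zero (y : p.L) : p.coef y 0 = 0 := by
  simp [coef]

theorem coef_lift_self (y : p.L) : p.coef y (p.lift y) = 1 := by
  rw [p.coef_lift, if_pos rfl]

theorem coef_lift_ne {y z : p.L} (h : z ≠ y) : p.coef y (p.lift z) = 0 := by
  rw [p.coef_lift, if_neg h]

theorem qpt_axis (i : Fin p.M) (s : ℝ) :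
    qpt (fun e => p.offs (p.src e)) (fun e => p.offs (p.tgt e)) (Sum.inl i) s = 0 := by
  simp [qpt, src, tgt, axis_offs]

theorem qpt_step (y : p.L) (j : Fin (p.b y + p.t y - (p.a y - p.t y))) (s : ℝ) :
    qpt (fun e => p.offs (p.src e)) (fun e => p.offs (p.tgt e)) (Sum.inr (Sum.inl ⟨y, j⟩)) s
      = ((1 - s) * p.ph y (p.a y - p.t y + j) + s * p.ph y (p.a y - p.t y + j + 1)) • p.lift y := by
  simp only [qpt, src, tgt, node_offs, add_smul, mul_smul]

theorem qpt_exec (x : {x : p.L × p.L // x.1 ∈ p.Y.anc x.2 ∧ x.1 ≠ x.2}) (s : ℝ) :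
    qpt (fun e => p.offs (p.src e)) (fun e => p.offs (p.tgt e)) (Sum.inr (Sum.inr x)) s
      = s • p.lift x.1.2 + (1 - s) • p.lift x.1.1 := by
  obtain ⟨-, -, h1, h2, -⟩ := p.in_exec_src x
  simp only [qpt, src, tgt, node_offs, h1, h2, one_smul]
  rw [add_comm]

theorem ph_nonneg (y : p.L) (i : ℕ) : 0 ≤ p.ph y i := prof_nonneg

theorem one_div_T_le_one : 1 / (p.T : ℝ) ≤ 1 := by
  have h : (1 : ℝ) ≤ (p.T : ℝ) := by exact_mod_cast Nat.succ_pos _
  rw [div_le_one (by linarith)]; exact h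

theorem step_val_ge (y : p.L) (j : Fin (p.b y + p.t y - (p.a y - p.t y))) {s : ℝ}
    (h0 : 0 ≤ s) (h1 : s ≤ 1) :
    min s (1 - s) / (p.T : ℝ)
      ≤ (1 - s) * p.ph y (p.a y - p.t y + j) + s * p.ph y (p.a y - p.t y + j + 1) := by
  have hj := j.isLt
  have ht := p.times y
  have hT : (0 : ℝ) ≤ 1 / (p.T : ℝ) := by positivity
  have e1 : 0 ≤ (1 - s) * p.ph y (p.a y - p.t y + j) := mul_nonneg (by linarith) (p.ph_nonneg _ _)
  have e2 : 0 ≤ s * p.ph y (p.a y - p.t y + j + 1) := mul_nonneg h0 (p.ph_nonneg _ _)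
  rw [div_eq_mul_one_div]
  by_cases h : p.In y (p.a y - p.t y + j)
  · have := mul_le_mul (min_le_right s (1 - s)) (p.ph_ge h) hT (by linarith : (0:ℝ) ≤ 1 - s)
    linarith
  · have h' : p.In y (p.a y - p.t y + j + 1) := by
      simp only [In] at h ⊢
      omega
    have := mul_le_mul (min_le_left s (1 - s)) (p.ph_ge h') hT h0
    linarith

theorem le_norm_of_coef {z : p.L} {w : H} {m : ℝ} (h : m ≤ |p.coef z w|) : p.ν * m ≤ ‖w‖ := by
  refine le_trans ?_ (p.coef_le z w)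
  rw [mul_comm]
  exact mul_le_mul_of_nonneg_right h p.hν.le

theorem sep_cables : ∀ e e' : p.Cab, e ≠ e' → p.slot e = p.slot e' → ∀ s : ℝ, 0 ≤ s → s ≤ 1 →
    p.ν / (p.T : ℝ) * min s (1 - s) ≤
      ‖qpt (fun e => p.offs (p.src e)) (fun e => p.offs (p.tgt e)) e s -
        qpt (fun e => p.offs (p.src e)) (fun e => p.offs (p.tgt e)) e' s‖ := by
  intro e e' hne hsl s h0 h1
  have hm0 : 0 ≤ min s (1 - s) := le_min h0 (by linarith)
  have hmT : min s (1 - s) / (p.T : ℝ) ≤ min s (1 - s) := by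
    rw [div_eq_mul_one_div]
    calc min s (1 - s) * (1 / (p.T : ℝ)) ≤ min s (1 - s) * 1 :=
          mul_le_mul_of_nonneg_left p.one_div_T_le_one hm0
      _ = _ := mul_one _
  suffices ∃ z, min s (1 - s) / (p.T : ℝ) ≤
      |p.coef z (qpt (fun e => p.offs (p.src e)) (fun e => p.offs (p.tgt e)) e s -
        qpt (fun e => p.offs (p.src e)) (fun e => p.offs (p.tgt e)) e' s)| by
    obtain ⟨z, hz⟩ := this
    rw [div_mul_eq_mul_div, ← mul_div_assoc']
    exact p.le_norm_of_coef hz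
  rcases e with i | ⟨y, j⟩ | x <;> rcases e' with i' | ⟨y', j'⟩ | x'
  · exact absurd (congrArg Sum.inl (Fin.ext hsl)) hne
  · refine ⟨y', ?_⟩
    rw [qpt_axis, qpt_step, zero_sub, coef, inner_neg_left, neg_div, abs_neg, ← coef, coef_smul,
      coef_lift_self, mul_one]
    exact (p.step_val_ge y' j' h0 h1).trans (le_abs_self _)
  · refine ⟨x'.1.2, ?_⟩
    rw [qpt_axis, qpt_exec, zero_sub, coef, inner_neg_left, neg_div, abs_neg, ← coef, coef_add,
      coef_smul, coef_smul, coef_lift_self, p.coef_lift_ne x'.2.2, mul_one, mul_zero, add_zero,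
      abs_of_nonneg h0]
    exact hmT.trans (min_le_left _ _)
  · refine ⟨y, ?_⟩
    rw [qpt_axis, qpt_step, sub_zero, coef_smul, coef_lift_self, mul_one]
    exact (p.step_val_ge y j h0 h1).trans (le_abs_self _)
  · refine ⟨y, ?_⟩
    have hy : y' ≠ y := by
      rintro rfl
      have : j = j' := Fin.ext (by simp only [slot] at hsl; omega)
      subst this; exact hne rfl
    rw [qpt_step, qpt_step, coef_sub, coef_smul, coef_smul, coef_lift_self, p.coef_lift_ne hy,
      mul_one, mul_zero, sub_zero]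
    exact (p.step_val_ge y j h0 h1).trans (le_abs_self _)
  · by_cases hy : y = x'.1.2
    · refine ⟨x'.1.1, ?_⟩
      have hy' : y ≠ x'.1.1 := fun h => x'.2.2 (h.symm.trans hy)
      rw [qpt_step, qpt_exec, coef_sub, coef_smul, coef_add, coef_smul, coef_smul,
        p.coef_lift_ne hy', p.coef_lift_ne (Ne.symm x'.2.2), coef_lift_self, mul_zero, mul_zero,
        mul_one, zero_add, zero_sub, abs_neg, abs_of_nonneg (by linarith : (0:ℝ) ≤ 1 - s)]
      exact hmT.trans (min_le_right _ _)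
    · refine ⟨x'.1.2, ?_⟩
      rw [qpt_step, qpt_exec, coef_sub, coef_smul, coef_add, coef_smul, coef_smul,
        p.coef_lift_ne hy, p.coef_lift_ne x'.2.2, coef_lift_self, mul_zero, mul_zero,
        mul_one, add_zero, zero_sub, abs_neg, abs_of_nonneg h0]
      exact hmT.trans (min_le_left _ _)
  · refine ⟨x.1.2, ?_⟩
    rw [qpt_axis, qpt_exec, sub_zero, coef_add,
      coef_smul, coef_smul, coef_lift_self, p.coef_lift_ne x.2.2, mul_one, mul_zero, add_zero,
      abs_of_nonneg h0]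
    exact hmT.trans (min_le_left _ _)
  · by_cases hy : y' = x.1.2
    · refine ⟨x.1.1, ?_⟩
      have hy' : y' ≠ x.1.1 := fun h => x.2.2 (h.symm.trans hy)
      rw [qpt_step, qpt_exec, coef_sub, coef_smul, coef_add, coef_smul, coef_smul,
        p.coef_lift_ne hy', p.coef_lift_ne (Ne.symm x.2.2), coef_lift_self, mul_zero, mul_zero,
        mul_one, zero_add, sub_zero, abs_of_nonneg (by linarith : (0:ℝ) ≤ 1 - s)]
      exact hmT.trans (min_le_right _ _)
    · refine ⟨x.1.2, ?_⟩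
      rw [qpt_step, qpt_exec, coef_sub, coef_smul, coef_add, coef_smul, coef_smul,
        p.coef_lift_ne hy, p.coef_lift_ne x.2.2, coef_lift_self, mul_zero, mul_zero,
        mul_one, add_zero, sub_zero, abs_of_nonneg h0]
      exact hmT.trans (min_le_left _ _)
  · have hc : x.1.2 = x'.1.2 := p.S.a_inj p.Y (by simpa only [slot, a] using hsl)
    have hq : x'.1.1 ≠ x.1.1 := fun h => hne (by
      congr 2; exact Subtype.ext (Prod.ext h.symm hc))
    refine ⟨x.1.1, ?_⟩
    rw [qpt_exec, qpt_exec, coef_sub, coef_add, coef_add, coef_smul, coef_smul, coef_smul,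
      coef_smul, p.coef_lift_ne hq, coef_lift_self, ← hc, p.coef_lift_ne (Ne.symm x.2.2),
      mul_zero, mul_zero, mul_one, zero_add, zero_add, sub_zero,
      abs_of_nonneg (by linarith : (0:ℝ) ≤ 1 - s)]
    exact hmT.trans (min_le_right _ _)

/-- The lifted points of a chain are as doubling as the chain. -/
theorem lift_chain_cov {Λ : ℕ} {δ : ℝ} (hΛ : p.Y.BagCov Λ)
    (hsepY : ∀ v : p.L, ∀ u ∈ p.Y.anc v, u ≠ v → δ ≤ ‖p.Y.pt v - p.Y.pt u‖)
    (hν : 20 * p.ν ≤ δ) (v : p.L) :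
    Cov (p.lift '' (↑(p.Y.anc v) : Set p.L)) (Λ ^ 4) := by
  classical
  intro x r hr
  by_cases hex : ∃ z ∈ p.Y.anc v, ‖p.lift z - x‖ ≤ r
  swap
  · refine ⟨∅, by simp, ?_⟩
    rintro _ ⟨z, hz, rfl⟩ hzx
    exact absurd ⟨z, mem_coe.1 hz, hzx⟩ hex
  obtain ⟨z0, hz0, hz0x⟩ := hex
  obtain ⟨T, hT, hc⟩ := (hΛ v).iter 4 (p.Y.pt z0) (2 * r) (by linarith)
  have hpt : ∀ z z' : p.L, ‖p.Y.pt z - p.Y.pt z'‖ ≤ ‖p.lift z - p.lift z'‖ := by
    intro z z'
    rw [← (p.Fr.J 0).norm_map (p.Y.pt z - p.Y.pt z'), map_sub]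
    have h2 : p.lift z - p.lift z' = (p.Fr.J 0 (p.Y.pt z) - p.Fr.J 0 (p.Y.pt z'))
        + p.ν • (p.q z - p.q z') := by simp only [lift]; module
    rw [h2]
    refine (abs_le_of_sq_le_sq' ?_ (norm_nonneg _)).2
    rw [norm_add_sq_real]
    have h3 : ⟪p.Fr.J 0 (p.Y.pt z) - p.Fr.J 0 (p.Y.pt z'), p.ν • (p.q z - p.q z')⟫ = 0 := by
      simp only [q, inner_sub_left, inner_sub_right, real_inner_smul_right,
        p.Fr.JJ 0 1 _ _ (by norm_num), sub_zero, mul_zero]
    rw [h3]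
    nlinarith [sq_nonneg ‖p.ν • (p.q z - p.q z')‖]
  let pick : H → H := fun c =>
    if hp : ∃ z ∈ p.Y.anc v, ‖p.Y.pt z - c‖ ≤ r / 8 then p.lift hp.choose else x
  refine ⟨T.image pick, card_image_le.trans hT, ?_⟩
  rintro _ ⟨z, hz, rfl⟩ hzx
  rw [mem_coe] at hz
  have h1 : ‖p.Y.pt z - p.Y.pt z0‖ ≤ 2 * r := by
    refine (hpt z z0).trans ((norm_sub_le_norm_sub_add_norm_sub _ x _).trans ?_)
    rw [norm_sub_rev x (p.lift z0)]
    linarith
  obtain ⟨c, hcT, hzc⟩ := hc _ (Set.mem_image_of_mem _ (mem_coe.2 hz)) h1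
  have hzc' : ‖p.Y.pt z - c‖ ≤ r / 8 := hzc.trans (le_of_eq (by ring))
  refine ⟨pick c, mem_image_of_mem _ hcT, ?_⟩
  have hp : ∃ z ∈ p.Y.anc v, ‖p.Y.pt z - c‖ ≤ r / 8 := ⟨z, hz, hzc'⟩
  simp only [pick, dif_pos hp]
  obtain ⟨hw, hwc⟩ := hp.choose_spec
  set w := hp.choose
  by_cases hzw : z = w
  · rw [← hzw, sub_self, norm_zero]; linarith
  have hzw' : ‖p.Y.pt z - p.Y.pt w‖ ≤ r / 4 := by
    refine (norm_sub_le_norm_sub_add_norm_sub _ c _).trans ?_
    rw [norm_sub_rev c (p.Y.pt w)]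
    linarith
  have hsep : δ ≤ ‖p.Y.pt z - p.Y.pt w‖ := by
    rcases p.Y.chain z w v hz hw with h | h
    · rw [norm_sub_rev]; exact hsepY w z h hzw
    · exact hsepY z w h (Ne.symm hzw)
  have h2 : p.lift z - p.lift w
      = (p.Fr.J 0 (p.Y.pt z) - p.Fr.J 0 (p.Y.pt w)) + (p.ν • p.q z - p.ν • p.q w) := by
    simp only [lift]; abel
  rw [h2]
  refine (norm_add_le _ _).trans ?_
  have h3 : ‖p.ν • p.q z - p.ν • p.q w‖ ≤ 2 * p.ν := by
    refine (norm_sub_le _ _).trans (le_of_eq ?_)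
    simp only [norm_smul, norm_q, Real.norm_eq_abs, abs_of_pos p.hν]; ring
  rw [← map_sub, LinearIsometry.norm_map]
  linarith

/-- Every slice is covered by boundedly many balls of half the radius. -/
theorem slice_all {Λ : ℕ} {δ : ℝ} (hΛ1 : 1 ≤ Λ) (hΛ : p.Y.BagCov Λ)
    (hsepY : ∀ v : p.L, ∀ u ∈ p.Y.anc v, u ≠ v → δ ≤ ‖p.Y.pt v - p.Y.pt u‖)
    (hν : 20 * p.ν ≤ δ) (i : ℕ) (s : ℝ) (_h0 : 0 ≤ s) (_h1 : s ≤ 1) :
    Cov {w : H | ∃ e : p.Cab, p.slot e = i ∧
      w = qpt (fun e => p.offs (p.src e)) (fun e => p.offs (p.tgt e)) e s} (2 + 2 * Λ ^ 4) := by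
  classical
  set AL : Finset p.L :=
    Finset.univ.filter fun y => p.a y ≤ i + p.t y ∧ i < p.b y + p.t y with hAL
  have hexecAL : ∀ c : p.L, p.a c = i → c ∈ AL := by
    intro c hc
    have := p.times c
    simp only [hAL, mem_filter, mem_univ, true_and]
    omega
  by_cases hne : AL.Nonempty
  swap
  · refine (cov_singleton (0 : H)).mono ?_ (by omega)
    rintro w ⟨e, he, rfl⟩
    rcases e with i' | ⟨y, j⟩ | x
    · exact p.qpt_axis i' s
    · refine absurd ⟨y, ?_⟩ hne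
      have := p.times y
      have := j.isLt
      simp only [slot] at he
      simp only [hAL, mem_filter, mem_univ, true_and]
      omega
    · exact absurd ⟨x.1.2, hexecAL _ (by simpa only [slot] using he)⟩ hne
  obtain ⟨v, hv, hmax⟩ := exists_max_image AL (fun y => (p.Y.anc y).card) hne
  have halive : ∀ y ∈ AL, y ∈ p.Y.anc v := by
    intro y hy
    by_contra h
    by_cases h' : v ∈ p.Y.anc y
    · exact h (by rw [eq_of_subset_of_card_le (p.Y.trans v y h') (hmax y hy)]; exact p.Y.refl y)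
    · simp only [hAL, mem_filter, mem_univ, true_and] at hy hv
      have hd : p.b y + p.t y < p.a v - p.t v ∨ p.b v + p.t v < p.a y - p.t y :=
        p.S.disjoint p.Y h h'
      omega
  let c0 : p.L := if h : ∃ c, p.a c = i then h.choose else v
  let σ : ℝ := (1 - s) * p.ph v i + s * p.ph v (i + 1)
  have hchain := p.lift_chain_cov hΛ hsepY hν v
  have h4 : 1 ≤ Λ ^ 4 := Nat.one_le_pow _ _ hΛ1
  have hfin : Cov (↑({0, σ • p.lift v} : Finset H) : Set H) 2 :=
    cov_of_subset_finset Set.Subset.rfl ((card_insert_le _ _).trans (by simp))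
  refine ((hfin.union hchain).union (hchain.image_affine h4 (s • p.lift c0) (1 - s))).mono ?_
    (by omega)
  rintro w ⟨e, he, rfl⟩
  rcases e with i' | ⟨y, j⟩ | x
  · exact Or.inl (Or.inl (by rw [p.qpt_axis]; simp))
  · have hj := j.isLt
    have hty := p.times y
    simp only [slot] at he
    have hy : y ∈ AL := by
      simp only [hAL, mem_filter, mem_univ, true_and]
      omega
    rw [qpt_step, he]
    by_cases hyv : y = v
    · subst hyv; exact Or.inl (Or.inl (by simp [σ]))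
    · refine Or.inl (Or.inr ⟨y, mem_coe.2 (halive y hy), ?_⟩)
      have hn : p.a y + 2 + p.t v ≤ p.a v ∧ p.b v + p.t v + 2 ≤ p.b y :=
        p.S.nested p.Y (halive y hy) hyv
      simp only [hAL, mem_filter, mem_univ, true_and] at hv
      have e1 : p.ph y i = 1 := prof_one (by omega) (by omega)
      have e2 : p.ph y (i + 1) = 1 := prof_one (by omega) (by omega)
      rw [e1, e2, mul_one, mul_one, sub_add_cancel, one_smul]
  · simp only [slot] at he
    have hc0 : c0 = x.1.2 := by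
      have hex : ∃ c, p.a c = i := ⟨_, he⟩
      simp only [c0, dif_pos hex]
      exact p.S.a_inj p.Y (hex.choose_spec.trans he.symm)
    refine Or.inr ⟨p.lift x.1.1, ⟨x.1.1, mem_coe.2 ?_, rfl⟩, ?_⟩
    · exact p.Y.trans _ _ (halive _ (hexecAL _ he)) x.2.1
    · rw [qpt_exec, hc0]

end Vale.Agent.P208.Neg.Params
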