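import Vale.Agent.P208.Neg.Bags
import Vale.Agent.P208.Neg.Slices
import Vale.Agent.P208.Neg.Base
import Vale.Agent.P208.Glue

/-! # P208: a doubling subset of `ℓ₂` with no bi-Lipschitz embedding into any `ℝ^k` -/

open Finset
open scoped RealInnerProductSpace

namespace Vale.Agent.P208.Neg

variable {H : Type} [NormedAddCommGroup H] [InnerProductSpace ℝ H]

namespace Params

variable (p : Params H)

open Classical in
theorem iterate {k : ℕ} {D δ τ : ℝ} (hD : 1 ≤ D) (hτ : 0 ≤ τ) (hθ : p.ε ^ 2 * τ ≤ 1) (hδ : 0 < δ)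
    (hY : p.Y.NoEmb k (5 * D))
    (hsepY : ∀ v : p.L, ∀ u ∈ p.Y.anc v, u ≠ v → δ ≤ ‖p.Y.pt v - p.Y.pt u‖)
    (hν : 20 * p.ν ≤ δ)
    (hdr : 2 * D ^ 2 * (p.C ^ 2 / (32 * p.R) + 2 * p.Wmax * τ) ≤ (δ / 16) ^ 2)
    (htime : D * p.ε * (p.C ^ 2 / p.μ + τ) ≤ δ / 8) (g : ℕ) :
    ∃ B : p.Blk, B.Stretch k D (D * (1 - p.ε ^ 2 * τ) ^ g) ∧
      (∀ v, ICov (B.X.pt '' (↑(B.X.anc v) : Set B.X.ι)) (tubeBound 4)) ∧
      ∀ Λ : ℕ, 1 ≤ Λ → p.Y.BagCov Λ → ICov (Set.range B.X.pt) (tubeBound (2 + 2 * Λ ^ 4)) := by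
  induction g with
  | zero =>
    have h33 : ∀ L, 2 ≤ tubeBound L := fun L => le_trans (by norm_num) (Nat.le_add_right 33 _)
    have key : ∀ (L : ℕ) (S : Set p.blk0.X.ι), ICov (p.blk0.X.pt '' S) (tubeBound L) := fun L S => by
      refine (icov_finset ({0, p.Fr.e} : Finset H)).mono ?_ (card_le_two.trans (h33 L))
      rintro _ ⟨v, -, rfl⟩
      cases v <;> simp [blk0]
    refine ⟨p.blk0, by simpa using p.blk0_stretch k D, fun v => key 4 _, fun Λ _ _ => ?_⟩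
    rw [← Set.image_univ]; exact key _ _
  | succ g ih =>
    obtain ⟨B, h1, h2, h3⟩ := ih
    have hsep : p.Sep := p.sep_cables
    have h0 : 0 ≤ 1 - p.ε ^ 2 * τ := by linarith
    have h1' : 1 - p.ε ^ 2 * τ ≤ 1 := by nlinarith [sq_nonneg p.ε]
    refine ⟨B.next, ?_, B.next_bag le_rfl hsep h2, fun Λ hΛ1 hΛ => ?_⟩
    · have := B.next_stretch hD hτ hδ hY hsepY hν hdr htime
        (mul_nonneg (by linarith) (pow_nonneg h0 g))
        (mul_le_of_le_one_right (by linarith) (pow_le_one₀ h0 h1')) h1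
      rwa [pow_succ, ← mul_assoc]
    · refine B.next_all le_rfl hsep (fun i s hs0 hs1 => ?_) (h3 Λ hΛ1 hΛ)
      refine (p.slice_all hΛ1 hΛ hsepY hν i s hs0 hs1).mono ?_ le_rfl
      rintro w ⟨j, -, hj, rfl⟩
      exact ⟨j, hj, rfl⟩

end Params

theorem exists_minsep (Y : Forest H) :
    ∃ δ : ℝ, 0 < δ ∧ δ ≤ 1 ∧ ∀ v, ∀ u ∈ Y.anc v, u ≠ v → δ ≤ ‖Y.pt v - Y.pt u‖ := by
  classical
  let T : Finset ℝ := insert 1 (((univ : Finset (Y.ι × Y.ι)).filter fun x => x.2 ∈ Y.anc x.1 ∧ x.2 ≠ x.1).image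
    fun x => ‖Y.pt x.1 - Y.pt x.2‖)
  have hT : T.Nonempty := insert_nonempty _ _
  refine ⟨T.min' hT, ?_, min'_le _ _ (mem_insert_self _ _), fun v u hu hne =>
    min'_le _ _ (mem_insert_of_mem (mem_image.2 ⟨(v, u), mem_filter.2 ⟨mem_univ _, hu, hne⟩, rfl⟩))⟩
  rw [lt_min'_iff]
  intro x hx
  rcases mem_insert.1 hx with rfl | hx
  · exact one_pos
  · obtain ⟨⟨v, u⟩, h, rfl⟩ := mem_image.1 hx
    obtain ⟨-, hu, hne⟩ := mem_filter.1 h
    exact norm_pos_iff.2 (sub_ne_zero.2 (Y.pt_ne hu hne).symm)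

/-- One step: the dimension goes up by one, chains stay absolutely covered. -/
theorem step (Fr : Frame H) (Y : Forest H) {k : ℕ} {D : ℝ} (hD : 1 ≤ D) (hY : Y.NoEmb k (5 * D)) :
    ∃ X : Forest H, X.NoEmb (k + 1) D ∧ X.BagCov (tubeBound 4) ∧
      ∀ Λ : ℕ, 1 ≤ Λ → Y.BagCov Λ → Cov (Set.range X.pt) (tubeBound (2 + 2 * Λ ^ 4)) := by
  obtain ⟨δ, hδ, hδ1, hsep⟩ := exists_minsep Y
  set C : ℝ := 8 * (∑ y, (‖Y.pt y‖ + 1) + 1) with hCdef
  have hC : ∀ y, 8 * (‖Y.pt y‖ + 1) ≤ C := fun y => by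
    have := single_le_sum (f := fun y => ‖Y.pt y‖ + 1) (fun y _ => by positivity) (mem_univ y)
    rw [hCdef]; linarith
  have hC8 : 8 ≤ C := by
    have : 0 ≤ ∑ y, (‖Y.pt y‖ + 1) := sum_nonneg fun y _ => by positivity
    rw [hCdef]; linarith
  obtain ⟨R, hR⟩ := exists_nat_ge (max 1 (32 * D ^ 2 * C ^ 2 / δ ^ 2))
  have hR1 : 1 ≤ R := by exact_mod_cast (le_max_left _ _).trans hR
  set W := wid (Fintype.card Y.ι) R (Fintype.card Y.ι) with hW
  set T : ℝ := ((R * W + 1 : ℕ) : ℝ) with hT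
  have hT0 : 0 < T := by rw [hT]; positivity
  set τ : ℝ := δ ^ 2 / (2048 * D ^ 2 * ((W : ℝ) + 1)) with hτdef
  have hD2 : 1 ≤ D ^ 2 := one_le_pow₀ hD
  have hτ0 : 0 < τ := by positivity
  have hτ1 : τ ≤ 1 := by
    refine div_le_one_of_le₀ ((pow_le_one₀ hδ.le hδ1).trans ?_) (by positivity)
    nlinarith [Nat.cast_nonneg (α := ℝ) W]
  set ν : ℝ := min 1 (δ / 20) with hνdef
  have hν0 : 0 < ν := lt_min one_pos (by positivity)
  obtain ⟨K0, hK0⟩ := exists_nat_ge (max ((W + 2 : ℕ) : ℝ) (256 * C * T / ν))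
  have hK0' : W + 2 ≤ K0 := by exact_mod_cast (le_max_left _ _).trans hK0
  have hK0pos : (0 : ℝ) < K0 := by exact_mod_cast (by omega : 0 < K0)
  set μ : ℝ := 1 / (4 * (K0 : ℝ)) with hμdef
  have hμ0 : 0 < μ := by positivity
  set ε : ℝ := min (min (μ / (128 * C)) (ν / T / (2048 * C * C)))
    (min (δ / (8 * D * (C ^ 2 / μ + τ))) 1) with hεdef
  have hε0 : 0 < ε := by
    refine lt_min (lt_min ?_ ?_) (lt_min ?_ one_pos) <;> positivity
  let p : Params H :=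
    { Fr := Fr, Y := Y, R := R, K0 := K0, ν := ν, ε := ε, C := C, hR := hR1, hK0 := hK0'
      hν := hν0, hν1 := min_le_left _ _, hε := hε0, hC := hC, hC1 := hC8
      hεμ := by
        have := (min_le_left _ _).trans (min_le_left _ _) (a := ε)
        rw [le_div_iff₀ (by positivity)] at this
        linarith
      hμC := by
        have := (le_max_right _ _).trans hK0
        rw [div_le_iff₀ hν0] at this
        rw [← hW, ← hT, le_div_iff₀ hT0, mul_one_div, div_mul_eq_mul_div, div_le_iff₀ (by positivity)]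
        linarith
      hεκ := by
        have := (min_le_left _ _).trans (min_le_right _ _) (a := ε)
        rw [le_div_iff₀ (by positivity)] at this
        rw [← hW, ← hT]
        linarith }
  have hdr : 2 * D ^ 2 * (C ^ 2 / (32 * (R : ℝ)) + 2 * (W : ℝ) * τ) ≤ (δ / 16) ^ 2 := by
    have h1 : 2 * D ^ 2 * (C ^ 2 / (32 * (R : ℝ))) ≤ δ ^ 2 / 512 := by
      have := (le_max_right _ _).trans hR
      rw [div_le_iff₀ (by positivity)] at this
      rw [mul_div_assoc', div_le_div_iff₀ (by positivity) (by norm_num)]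
      linarith
    have h2 : 2 * D ^ 2 * (2 * (W : ℝ) * τ) ≤ δ ^ 2 / 512 := by
      rw [hτdef, mul_div_assoc', mul_div_assoc', div_le_div_iff₀ (by positivity) (by norm_num)]
      have : 0 ≤ δ ^ 2 * D ^ 2 := by positivity
      linarith
    linarith
  have htime : D * ε * (C ^ 2 / μ + τ) ≤ δ / 8 := by
    have := (min_le_right _ _).trans (min_le_left _ _) (a := ε)
    rw [le_div_iff₀ (by positivity)] at this
    linarith
  have hν20 : 20 * ν ≤ δ := by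
    have := min_le_right (1 : ℝ) (δ / 20)
    rw [hνdef]; linarith
  have hθ : ε ^ 2 * τ ≤ 1 :=
    mul_le_one₀ (pow_le_one₀ hε0.le ((min_le_right _ _).trans (min_le_right _ _))) hτ0.le hτ1
  have hθ0 : 0 < ε ^ 2 * τ := by positivity
  obtain ⟨g, hg⟩ := exists_pow_lt_of_lt_one (x := 1 / D) (y := 1 - ε ^ 2 * τ) (by positivity)
    (by linarith)
  obtain ⟨B, h1, h2, h3⟩ := p.iterate hD hτ0.le hθ hδ hY hsep hν20 hdr htime g
  refine ⟨B.X, B.noEmb h1 ?_, fun v => (h2 v).cov, fun Λ hΛ1 hΛ => (h3 Λ hΛ1 hΛ).cov⟩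
  rw [lt_div_iff₀ (by linarith : (0:ℝ) < D)] at hg
  show D * (1 - ε ^ 2 * τ) ^ g < 1
  linarith

/-- A bound on doubling constants that works for every target dimension and distortion. -/
def finalBound : ℕ := tubeBound (2 + 2 * tubeBound 4 ^ 4) ^ 2

theorem hard_finite (Fr : Frame H) (k : ℕ) {D : ℝ} (hD : 1 ≤ D) :
    ∃ F : Finset H, Vale.Agent.P208.Dbl (↑F : Set H) finalBound ∧
      ¬ Vale.Agent.P208.Emb (↑F : Set H) (k + 2) D := by
  classical
  obtain ⟨Y, hY⟩ := base_forest Fr k (5 * (5 * D)) (by linarith)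
  obtain ⟨X₁, h1, hb1, -⟩ := step Fr Y (by linarith : (1:ℝ) ≤ 5 * D) hY
  obtain ⟨X₂, h2, -, ha2⟩ := step Fr X₁ hD h1
  refine ⟨univ.image X₂.pt, ?_, ?_⟩
  · have hr : ((univ.image X₂.pt : Finset H) : Set H) = Set.range X₂.pt := by simp
    intro x hx r hr'
    rw [hr] at hx ⊢
    exact (ha2 _ (le_trans (by norm_num) (Nat.le_add_right 33 _)) hb1).centres x hx r hr'
  · rintro ⟨a, f, ha, hf⟩
    have hmem : ∀ v, X₂.pt v ∈ ((univ.image X₂.pt : Finset H) : Set H) := fun v =>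
      mem_coe.2 (mem_image_of_mem _ (mem_univ _))
    obtain ⟨v, u, hu, hne, hv⟩ := h2 fun v => a⁻¹ • f ⟨X₂.pt v, hmem v⟩
    refine hv ?_
    have h := hf ⟨X₂.pt v, hmem v⟩ ⟨X₂.pt u, hmem u⟩
    simp only [dist_eq_norm] at h
    rw [← smul_sub, norm_smul, norm_inv, Real.norm_eq_abs, abs_of_pos ha, inv_mul_eq_div,
      le_div_iff₀ ha, div_le_iff₀ ha]
    constructor <;> linarith [h.1, h.2]

theorem disproof : ∃ (X : Set (lp (fun _ : ℕ => ℝ) 2)) (M : ℕ),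
    Vale.Agent.P208.Dbl X M ∧ ∀ k D, ¬ Vale.Agent.P208.Emb X k D := by
  haveI : Nontrivial (lp (fun _ : ℕ => ℝ) 2) := ⟨⟨l2Frame.e, 0, fun h => by
    have := l2Frame.he; rw [h, norm_zero] at this; exact zero_ne_one this⟩⟩
  refine glue (m := finalBound) fun n => ?_
  obtain ⟨F, h1, h2⟩ := hard_finite l2Frame n (D := max 1 (n : ℝ)) (le_max_left _ _)
  exact ⟨F, h1, fun h => h2 (h.mono (by omega) (le_max_right _ _))⟩

end Vale.Agent.P208.Neg
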