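import Mathlib

/-! # P208: a nearly straight monotone path has little transversal motion -/

open Finset
open scoped RealInnerProductSpace

namespace Vale.Agent.P208.Neg

variable {W : Type} [NormedAddCommGroup W] [InnerProductSpace ℝ W]

/-- The part of `x` orthogonal to the unit vector `u`. -/
def perp (u x : W) : W := x - ⟪x, u⟫ • u

theorem perp_sub (u x y : W) : perp u (x - y) = perp u x - perp u y := by
  simp only [perp, inner_sub_left]; module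

theorem perp_sq_le {u : W} (hu : ‖u‖ = 1) (x : W) :
    ‖perp u x‖ ^ 2 ≤ 2 * ‖x‖ * (‖x‖ - ⟪x, u⟫) := by
  have h : ‖perp u x‖ ^ 2 = ‖x‖ ^ 2 - ⟪x, u⟫ ^ 2 := by
    rw [perp, norm_sub_sq_real, real_inner_smul_right, norm_smul, hu, mul_one, Real.norm_eq_abs,
      sq_abs]; ring
  have h1 : |⟪x, u⟫| ≤ ‖x‖ := by simpa [hu] using abs_real_inner_le_norm x u
  obtain ⟨h2, h3⟩ := abs_le.1 h1
  rw [h]
  nlinarith

theorem norm_le_perp_add {u : W} (hu : ‖u‖ = 1) (x : W) : ‖x‖ ≤ ‖perp u x‖ + |⟪x, u⟫| := by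
  calc ‖x‖ = ‖perp u x + ⟪x, u⟫ • u‖ := by simp [perp]
    _ ≤ _ := (norm_add_le _ _).trans (by rw [norm_smul, hu, mul_one, Real.norm_eq_abs])

/-- Hypotheses on a stretched monotone path with steps of source length about `μ`. -/
structure PathData (v : ℕ → W) (u : W) (M : ℕ) (μ ε θ s E : ℝ) (En : ℕ → ℝ) : Prop where
  hu : ‖u‖ = 1
  hs : 0 ≤ s
  hμ : 0 < μ
  hM : (M : ℝ) * μ = 1
  hEn : ∀ i, 0 ≤ En i
  hE : ∑ i ∈ range M, En i ≤ E
  step : ∀ i < M, ‖v (i + 1) - v i‖ ≤ s * (μ + ε ^ 2 * En i / (2 * μ))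
  tight : s * (1 - θ) ≤ ⟪v M - v 0, u⟫

namespace PathData

variable {v : ℕ → W} {u : W} {M : ℕ} {μ ε θ s E : ℝ} {En : ℕ → ℝ}

theorem sum_step (h : PathData v u M μ ε θ s E En) {i j : ℕ} (hij : i ≤ j) (hj : j ≤ M) :
    ∑ l ∈ Ico i j, ‖v (l + 1) - v l‖ ≤ s * ((((j : ℝ) - i)) * μ + ε ^ 2 * E / (2 * μ)) := by
  have hsub : Ico i j ⊆ range M := fun l hl => mem_range.2 ((mem_Ico.1 hl).2.trans_le hj)
  calc ∑ l ∈ Ico i j, ‖v (l + 1) - v l‖
      ≤ ∑ l ∈ Ico i j, s * (μ + ε ^ 2 * En l / (2 * μ)) :=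
        sum_le_sum fun l hl => h.step l (mem_range.1 (hsub hl))
    _ = s * ((((j : ℝ) - i)) * μ + ε ^ 2 * (∑ l ∈ Ico i j, En l) / (2 * μ)) := by
        rw [← mul_sum, sum_add_distrib, sum_const, Nat.card_Ico, nsmul_eq_mul, ← sum_div,
          ← mul_sum, Nat.cast_sub hij]
    _ ≤ _ := by
        have hμ := h.hμ
        have hsum : ∑ l ∈ Ico i j, En l ≤ E :=
          (sum_le_sum_of_subset_of_nonneg hsub fun l _ _ => h.hEn l).trans h.hE
        exact mul_le_mul_of_nonneg_left (add_le_add le_rfl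
          (div_le_div_of_nonneg_right (mul_le_mul_of_nonneg_left hsum (sq_nonneg ε)) (by linarith))) h.hs

theorem slack (h : PathData v u M μ ε θ s E En) :
    ∑ l ∈ range M, (‖v (l + 1) - v l‖ - ⟪v (l + 1) - v l, u⟫)
      ≤ s * (ε ^ 2 * E / (2 * μ) + θ) := by
  rw [sum_sub_distrib]
  have h1 := h.sum_step (Nat.zero_le M) le_rfl
  rw [← Finset.range_eq_Ico, Nat.cast_zero, sub_zero, h.hM] at h1
  have h2 : ∑ l ∈ range M, ⟪v (l + 1) - v l, u⟫ = ⟪v M - v 0, u⟫ := by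
    rw [← sum_inner, sum_range_sub]
  have := h.tight
  linarith

theorem inner_le (h : PathData v u M μ ε θ s E En) {i j : ℕ} (hij : i ≤ j) (hj : j ≤ M) :
    ⟪v j - v i, u⟫ ≤ s * ((((j : ℝ) - i)) * μ + ε ^ 2 * E / (2 * μ)) := by
  refine le_trans ?_ (h.sum_step hij hj)
  rw [← sum_Ico_sub v hij, sum_inner]
  refine sum_le_sum fun l _ => ?_
  exact (le_abs_self _).trans (by simpa [h.hu] using abs_real_inner_le_norm (v (l + 1) - v l) u)

/-- Along the path the longitudinal coordinate is linear in time. -/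
theorem time (h : PathData v u M μ ε θ s E En) (hθ : 0 ≤ θ) {i : ℕ} (hi : i ≤ M) :
    |⟪v i - v 0, u⟫ - s * ((i : ℝ) * μ)| ≤ s * (ε ^ 2 * E / (2 * μ) + θ) := by
  have h1 := h.inner_le (Nat.zero_le i) hi
  have h2 := h.inner_le hi le_rfl
  have h3 := h.tight
  have hs := h.hs
  rw [Nat.cast_zero, sub_zero] at h1
  have h4 : ⟪v M - v i, u⟫ = ⟪v M - v 0, u⟫ - ⟪v i - v 0, u⟫ := by
    rw [← inner_sub_left, sub_sub_sub_cancel_right]
  rw [h4] at h2
  have h5 : ((M : ℝ) - i) * μ = 1 - i * μ := by rw [sub_mul, h.hM]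
  rw [h5] at h2
  rw [abs_le]
  have h6 : 0 ≤ s * θ := mul_nonneg hs hθ
  constructor <;> linarith

/-- The transversal motion between two times is small. -/
theorem drift (h : PathData v u M μ ε θ s E En) (hεμ : ε ^ 2 * E ≤ μ ^ 2)
    {i j : ℕ} (hij : i ≤ j) (hj : j ≤ M) :
    ‖perp u (v j - v i)‖ ^ 2 ≤ 2 * s ^ 2 * ((j : ℝ) - i) * (ε ^ 2 * E + 2 * μ * θ) := by
  rcases eq_or_lt_of_le hij with rfl | hlt
  · simp [perp]
  have hμ := h.hμ
  have hE0 : 0 ≤ E := (sum_nonneg fun l _ => h.hEn l).trans h.hE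
  have hn : (1 : ℝ) ≤ (j : ℝ) - i := by
    have : ((i : ℝ) + 1) ≤ j := by exact_mod_cast hlt
    linarith
  let X : ℕ → ℝ := fun l => 2 * ‖v (l + 1) - v l‖
  let Z : ℕ → ℝ := fun l => ‖v (l + 1) - v l‖ - ⟪v (l + 1) - v l, u⟫
  have hZ : ∀ l, 0 ≤ Z l := fun l => by
    have := (le_abs_self _).trans (abs_real_inner_le_norm (v (l + 1) - v l) u)
    simp only [Z]; rw [h.hu, mul_one] at this; linarith
  have hX : ∀ l, 0 ≤ X l := fun l => by positivity
  have h1 : ‖perp u (v j - v i)‖ ≤ ∑ l ∈ Ico i j, Real.sqrt (X l) * Real.sqrt (Z l) := by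
    have : perp u (v j - v i) = ∑ l ∈ Ico i j, perp u (v (l + 1) - v l) := by
      rw [perp_sub]
      simp only [perp_sub]
      exact (sum_Ico_sub (fun l => perp u (v l)) hij).symm
    rw [this]
    refine (norm_sum_le _ _).trans (sum_le_sum fun l _ => ?_)
    rw [← Real.sqrt_mul (hX l)]
    exact Real.le_sqrt_of_sq_le (perp_sq_le h.hu _)
  have h2 := sum_mul_sq_le_sq_mul_sq (Ico i j) (fun l => Real.sqrt (X l)) (fun l => Real.sqrt (Z l))
  simp only [Real.sq_sqrt (hX _), Real.sq_sqrt (hZ _)] at h2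
  have h3 : ∑ l ∈ Ico i j, X l ≤ 2 * (s * (((j : ℝ) - i) * μ + ε ^ 2 * E / (2 * μ))) := by
    simp only [X]; rw [← mul_sum]
    exact mul_le_mul_of_nonneg_left (h.sum_step hij hj) (by norm_num)
  have h4 : ∑ l ∈ Ico i j, Z l ≤ s * (ε ^ 2 * E / (2 * μ) + θ) :=
    (sum_le_sum_of_subset_of_nonneg (fun l hl => mem_range.2 ((mem_Ico.1 hl).2.trans_le hj))
      fun l _ _ => hZ l).trans h.slack
  have h5 : ε ^ 2 * E / (2 * μ) ≤ μ * ((j : ℝ) - i) / 2 := by
    rw [div_le_iff₀ (by positivity)]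
    nlinarith
  calc ‖perp u (v j - v i)‖ ^ 2
      ≤ (∑ l ∈ Ico i j, Real.sqrt (X l) * Real.sqrt (Z l)) ^ 2 :=
        pow_le_pow_left₀ (norm_nonneg _) h1 2
    _ ≤ (∑ l ∈ Ico i j, X l) * ∑ l ∈ Ico i j, Z l := h2
    _ ≤ (2 * (s * (2 * (μ * ((j : ℝ) - i))))) * (s * (ε ^ 2 * E / (2 * μ) + θ)) := by
        have hs := h.hs
        refine mul_le_mul (h3.trans ?_) h4 (sum_nonneg fun l _ => hZ l) (by positivity)
        refine mul_le_mul_of_nonneg_left (mul_le_mul_of_nonneg_left ?_ hs) (by norm_num)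
        nlinarith
    _ = 2 * s ^ 2 * ((j : ℝ) - i) * (ε ^ 2 * E + 2 * μ * θ) := by field_simp

end PathData

end Vale.Agent.P208.Neg
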