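import Vale.Agent.P208.Neg.Gadget
import Vale.Agent.P208.Neg.PathBound

/-! # P208: a nearly maximally stretched gadget reproduces the forest one dimension lower -/

open Finset
open scoped RealInnerProductSpace

namespace Vale.Agent.P208.Neg

variable {H : Type} [NormedAddCommGroup H] [InnerProductSpace ℝ H]

namespace Params

variable (p : Params H)

theorem strand_cable (y : p.L) {i : ℕ} (hi : i < p.M) :
    ∃ e, p.src e = p.node y i ∧ p.tgt e = p.node y (i + 1) := by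
  by_cases h : p.a y - p.t y ≤ i ∧ i < p.b y + p.t y
  · refine ⟨.inr (.inl ⟨y, ⟨i - (p.a y - p.t y), by omega⟩⟩), ?_, ?_⟩ <;>
      simp only [src, tgt] <;> congr 1 <;> omega
  · have := p.times y
    have h1 : ¬ p.In y i := fun hh => h ⟨by have := hh.1; omega, hh.2⟩
    have h2 : ¬ p.In y (i + 1) := fun hh => h ⟨by have := hh.1; omega, by have := hh.2; omega⟩
    exact ⟨.inl ⟨i, hi⟩, (p.node_out h1).symm, (p.node_out h2).symm⟩

theorem node_end (y : p.L) : p.node y 0 = p.P ∧ p.node y p.M = p.Q := by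
  have := p.times y
  refine ⟨p.node_out fun h => ?_, p.node_out fun h => ?_⟩
  · have := h.1; omega
  · have := h.2; simp only [M] at *; omega

theorem lift_sub (y z : p.L) :
    ‖p.Y.pt y - p.Y.pt z‖ ≤ ‖p.lift y - p.lift z‖ ∧
      ‖p.lift y - p.lift z‖ ≤ ‖p.Y.pt y - p.Y.pt z‖ + 2 * p.ν := by
  have h : p.lift y - p.lift z = p.Fr.J 0 (p.Y.pt y - p.Y.pt z) + p.ν • (p.q y - p.q z) := by
    simp only [lift, map_sub]; module
  rw [h]
  constructor
  · refine (abs_le_of_sq_le_sq' ?_ (norm_nonneg _)).2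
    have h0 : ⟪p.Fr.J 0 (p.Y.pt y - p.Y.pt z), p.ν • (p.q y - p.q z)⟫ = 0 := by
      have h0' : ∀ x w, ⟪p.Fr.J 0 x, p.Fr.J 1 w⟫ = 0 := fun x w => p.Fr.JJ 0 1 x w (by norm_num)
      rw [inner_smul_right, q, q, inner_sub_right, h0', h0', sub_zero, mul_zero]
    rw [norm_add_sq_real, h0, LinearIsometry.norm_map]
    nlinarith [sq_nonneg ‖p.ν • (p.q y - p.q z)‖]
  · refine (norm_add_le _ _).trans ?_
    rw [LinearIsometry.norm_map, norm_smul, Real.norm_eq_abs, abs_of_pos p.hν]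
    have := norm_sub_le (p.q y) (p.q z)
    rw [p.norm_q, p.norm_q] at this
    have := mul_le_mul_of_nonneg_left this p.hν.le
    linarith

theorem sum_strand (y : p.L) :
    ∑ i ∈ range p.M, ‖p.offs (p.node y (i + 1)) - p.offs (p.node y i)‖ ^ 2
      ≤ (p.C / 8) ^ 2 * (2 / (p.t y : ℝ)) := by
  simp only [p.node_offs, ← sub_smul, norm_smul, mul_pow, Real.norm_eq_abs, sq_abs]
  rw [← sum_mul, mul_comm]
  exact mul_le_mul (pow_le_pow_left₀ (norm_nonneg _) (p.norm_lift y) 2)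
    (prof_energy (p.one_le_t y) _) (sum_nonneg fun i _ => sq_nonneg _) (sq_nonneg _)

/-- The bound on the width of windows. -/
noncomputable def Wmax : ℕ := wid (Fintype.card p.Y.ι) p.R (Fintype.card p.Y.ι)

theorem two_div_t (y : p.L) : (2 : ℝ) / p.t y ≤ 2 / p.R := by
  have hw : 4 ≤ p.S.w p.Y y := p.S.two_le_w p.Y y
  have h : p.R ≤ p.t y := by
    have : p.t y = p.R * p.S.w p.Y y := rfl
    rw [this]; exact Nat.le_mul_of_pos_right _ (by omega)
  exact div_le_div_of_nonneg_left (by norm_num) (by exact_mod_cast p.hR) (by exact_mod_cast h)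

/-- A map of the nodes stretching the base almost maximally in direction `u`. -/
structure Tight {k : ℕ} (D θ s : ℝ) (f : p.Node → EuclideanSpace ℝ (Fin (k + 1)))
    (u : EuclideanSpace ℝ (Fin (k + 1))) : Prop where
  hu : ‖u‖ = 1
  hs : 0 ≤ s
  hsD : s ≤ D
  hup : ∀ e, ‖f (p.tgt e) - f (p.src e)‖ ≤ s * p.len e
  tight : s * (1 - θ) ≤ ⟪f p.Q - f p.P, u⟫

variable {p} in
theorem Tight.path {k : ℕ} {D θ s : ℝ} {f : p.Node → EuclideanSpace ℝ (Fin (k + 1))}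
    {u : EuclideanSpace ℝ (Fin (k + 1))} (ht : p.Tight D θ s f u) (w : ℕ → p.Node) (E : ℝ)
    (h0 : w 0 = p.P) (hM : w p.M = p.Q)
    (hc : ∀ i < p.M, ∃ e, p.src e = w i ∧ p.tgt e = w (i + 1))
    (hE : ∑ i ∈ range p.M, ‖p.offs (w (i + 1)) - p.offs (w i)‖ ^ 2 ≤ E) :
    PathData (fun i => f (w i)) u p.M p.μ p.ε θ s E
      (fun i => ‖p.offs (w (i + 1)) - p.offs (w i)‖ ^ 2) := by
  refine ⟨ht.hu, ht.hs, p.μ_pos, p.M_mul, fun i => sq_nonneg _, hE, fun i hi => ?_, ?_⟩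
  · obtain ⟨e, he1, he2⟩ := hc i hi
    rw [← he1, ← he2]
    exact (ht.hup e).trans (mul_le_mul_of_nonneg_left (p.len_le e) ht.hs)
  · simp only [h0, hM]; exact ht.tight

variable {p} in
theorem Tight.strand {k : ℕ} {D θ s : ℝ} {f : p.Node → EuclideanSpace ℝ (Fin (k + 1))}
    {u : EuclideanSpace ℝ (Fin (k + 1))} (ht : p.Tight D θ s f u) (y : p.L) :
    PathData (fun i => f (p.node y i)) u p.M p.μ p.ε θ s ((p.C / 8) ^ 2 * (2 / (p.t y : ℝ)))
      (fun i => ‖p.offs (p.node y (i + 1)) - p.offs (p.node y i)‖ ^ 2) :=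
  ht.path (p.node y) _ (p.node_end y).1 (p.node_end y).2 (fun _ hi => p.strand_cable y hi)
    (p.sum_strand y)

theorem strand_energy (y : p.L) : (p.C / 8) ^ 2 * (2 / (p.t y : ℝ)) ≤ p.C ^ 2 / 32 := by
  have hRinv : 2 / (p.R : ℝ) ≤ 2 := div_le_self (by norm_num) (by exact_mod_cast p.hR)
  have h1 := mul_le_mul_of_nonneg_left ((p.two_div_t y).trans hRinv) (sq_nonneg (p.C / 8))
  linarith [h1, show (p.C / 8) ^ 2 * 2 = p.C ^ 2 / 32 by ring]

theorem eps_sq {E : ℝ} (hE : E ≤ p.C ^ 2) : p.ε ^ 2 * E ≤ p.μ ^ 2 := by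
  have hε := p.hε
  have hC0 : 0 ≤ p.C := le_trans (by norm_num) p.hC1
  have hεC : p.ε * p.C ≤ p.μ := by
    have h4 : 128 * p.C * p.ε ≤ p.μ := p.hεμ
    have : 0 ≤ p.C * p.ε := mul_nonneg hC0 hε.le
    linarith
  refine (mul_le_mul_of_nonneg_left hE (sq_nonneg _)).trans ?_
  rw [← mul_pow]; exact pow_le_pow_left₀ (by positivity) hεC 2

theorem width (y : p.L) :
    ((p.b y : ℝ) - p.a y) ≤ p.Wmax ∧ ((p.b y : ℝ) - p.a y) / p.t y ≤ 1 / p.R := by
  have e0 : (p.b y : ℝ) - p.a y = (p.S.w p.Y y : ℕ) := by simp [b, a, Sched.b]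
  rw [e0]
  refine ⟨by exact_mod_cast p.S.w_le p.Y y, le_of_eq ?_⟩
  have hw : (0:ℝ) < (p.S.w p.Y y : ℕ) := by
    exact_mod_cast (p.S.two_le_w p.Y y).trans_lt' (by norm_num)
  have hR' : p.S.R = p.R := rfl
  simp only [t, Sched.tr_eq, hR']
  push_cast; field_simp

theorem time_bound {k : ℕ} {D δ τ s : ℝ} {f : p.Node → EuclideanSpace ℝ (Fin (k + 1))}
    {u : EuclideanSpace ℝ (Fin (k + 1))} (ht : p.Tight D (p.ε ^ 2 * τ) s f u) (hτ : 0 ≤ τ)
    (htime : D * p.ε * (p.C ^ 2 / p.μ + τ) ≤ δ / 8) (y : p.L) {i : ℕ} (hi : i ≤ p.M) :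
    |⟪f (p.node y i) - f p.P, u⟫ - s * ((i : ℝ) * p.μ)| ≤ p.ε * δ / 8 := by
  have hε := p.hε
  have hμ := p.μ_pos
  have hs := ht.hs
  have hsD := ht.hsD
  have hθ0 : 0 ≤ p.ε ^ 2 * τ := by positivity
  have h := (ht.strand y).time hθ0 hi
  simp only [(p.node_end y).1] at h
  refine h.trans ?_
  have h1 : p.ε ^ 2 * ((p.C / 8) ^ 2 * (2 / (p.t y : ℝ))) / (2 * p.μ) + p.ε ^ 2 * τ
      ≤ p.ε ^ 2 * (p.C ^ 2 / p.μ + τ) := by
    rw [mul_add]
    refine add_le_add ?_ le_rfl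
    have h2 := (p.strand_energy y).trans (by linarith [sq_nonneg p.C] : p.C ^ 2 / 32 ≤ 2 * p.C ^ 2)
    have h3 := div_le_div_of_nonneg_right (mul_le_mul_of_nonneg_left h2 (sq_nonneg p.ε))
      (by positivity : (0:ℝ) ≤ 2 * p.μ)
    refine h3.trans (le_of_eq ?_)
    field_simp
  calc s * _ ≤ D * (p.ε ^ 2 * (p.C ^ 2 / p.μ + τ)) := mul_le_mul hsD h1 (by positivity) (by linarith)
    _ = p.ε * (D * p.ε * (p.C ^ 2 / p.μ + τ)) := by ring
    _ ≤ p.ε * (δ / 8) := mul_le_mul_of_nonneg_left htime hε.le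
    _ = _ := by ring

theorem drift_bound {k : ℕ} {D δ τ s : ℝ} {f : p.Node → EuclideanSpace ℝ (Fin (k + 1))}
    {u : EuclideanSpace ℝ (Fin (k + 1))} (ht : p.Tight D (p.ε ^ 2 * τ) s f u) (hτ : 0 ≤ τ) (hδ : 0 < δ)
    (hdr : 2 * D ^ 2 * (p.C ^ 2 / (32 * p.R) + 2 * p.Wmax * τ) ≤ (δ / 16) ^ 2)
    (y : p.L) (i j : ℕ) (h1 : p.a y ≤ i) (h2 : i ≤ j) (h3 : j ≤ p.b y) :
    ‖perp u (f (p.node y j) - f (p.node y i))‖ ≤ p.ε * δ / 16 := by
  have hε := p.hε
  have hμ := p.μ_pos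
  have hμ8 := p.μ_le
  have hs := ht.hs
  have hsD := ht.hsD
  have hRpos : (0 : ℝ) < p.R := by exact_mod_cast p.hR
  have htm := p.times y
  have h := (ht.strand y).drift (p.eps_sq ((p.strand_energy y).trans (by linarith [sq_nonneg p.C]))) h2
    (by simp only [M]; omega)
  refine (abs_le_of_sq_le_sq' (h.trans ?_) (by positivity)).2
  have hn0 : (0:ℝ) ≤ (j : ℝ) - i := sub_nonneg.2 (by exact_mod_cast h2)
  have hn : (j : ℝ) - i ≤ (p.b y : ℝ) - p.a y := by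
    have e1 : (p.a y : ℝ) ≤ i := by exact_mod_cast h1
    have e2 : (j : ℝ) ≤ p.b y := by exact_mod_cast h3
    linarith
  have hμ1 : p.μ ≤ 1 := by linarith
  have e3 : ((j : ℝ) - i) * ((p.C / 8) ^ 2 * (2 / (p.t y : ℝ))) ≤ p.C ^ 2 / (32 * p.R) := by
    calc ((j : ℝ) - i) * ((p.C / 8) ^ 2 * (2 / (p.t y : ℝ)))
        ≤ ((p.b y : ℝ) - p.a y) * ((p.C / 8) ^ 2 * (2 / (p.t y : ℝ))) :=
          mul_le_mul_of_nonneg_right hn (by positivity)
      _ = (p.C / 8) ^ 2 * 2 * (((p.b y : ℝ) - p.a y) / (p.t y : ℝ)) := by ring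
      _ ≤ (p.C / 8) ^ 2 * 2 * (1 / p.R) := mul_le_mul_of_nonneg_left (p.width y).2 (by positivity)
      _ = _ := by field_simp; ring
  have e4 : ((j : ℝ) - i) * (2 * p.μ * τ) ≤ 2 * p.Wmax * τ := by
    calc ((j : ℝ) - i) * (2 * p.μ * τ) ≤ (p.Wmax : ℝ) * (2 * 1 * τ) :=
          mul_le_mul (hn.trans (p.width y).1) (by nlinarith) (by positivity) (by positivity)
      _ = _ := by ring
  calc 2 * s ^ 2 * ((j : ℝ) - i) * (p.ε ^ 2 * ((p.C / 8) ^ 2 * (2 / (p.t y : ℝ))) + 2 * p.μ * (p.ε ^ 2 * τ))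
      = 2 * s ^ 2 * (p.ε ^ 2 * (((j : ℝ) - i) * ((p.C / 8) ^ 2 * (2 / (p.t y : ℝ)))
          + ((j : ℝ) - i) * (2 * p.μ * τ))) := by ring
    _ ≤ 2 * D ^ 2 * (p.ε ^ 2 * (p.C ^ 2 / (32 * p.R) + 2 * p.Wmax * τ)) := by
        refine mul_le_mul (mul_le_mul_of_nonneg_left (pow_le_pow_left₀ hs hsD 2) (by norm_num))
          (mul_le_mul_of_nonneg_left (add_le_add e3 e4) (sq_nonneg _)) (by positivity) (by positivity)
    _ = p.ε ^ 2 * (2 * D ^ 2 * (p.C ^ 2 / (32 * p.R) + 2 * p.Wmax * τ)) := by ring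
    _ ≤ p.ε ^ 2 * (δ / 16) ^ 2 := mul_le_mul_of_nonneg_left hdr (sq_nonneg _)
    _ = _ := by ring

theorem exec_bound {k : ℕ} {D δ τ s : ℝ} {f : p.Node → EuclideanSpace ℝ (Fin (k + 1))}
    {u : EuclideanSpace ℝ (Fin (k + 1))} (ht : p.Tight D (p.ε ^ 2 * τ) s f u)
    (hD : 1 ≤ D) (hτ : 0 ≤ τ) (hδ : 0 < δ) (hν : 20 * p.ν ≤ δ)
    (hdr : 2 * D ^ 2 * (p.C ^ 2 / (32 * p.R) + 2 * p.Wmax * τ) ≤ (δ / 16) ^ 2)
    {q c : p.L} (hq : q ∈ p.Y.anc c) (hne : q ≠ c) (hΔ : δ ≤ ‖p.Y.pt c - p.Y.pt q‖) :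
    ‖perp u (f (p.node c (p.a c + 1)) - f (p.node q (p.a c)))‖
      ≤ 2 * D * p.ε * ‖p.Y.pt c - p.Y.pt q‖ := by
  have hε := p.hε
  have hμ := p.μ_pos
  have hμ8 := p.μ_le
  have hs := ht.hs
  have hsD := ht.hsD
  have hRpos : (0 : ℝ) < p.R := by exact_mod_cast p.hR
  have hn : p.a q + 2 + p.t c ≤ p.a c ∧ p.b c + p.t c + 2 ≤ p.b q := p.S.nested p.Y hq hne
  have htc := p.times c
  have htq := p.times q
  have hMc : p.a c + 1 ≤ p.M := by simp only [M]; omega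
  obtain ⟨-, -, hphq, hphc, -⟩ := p.in_exec_src ⟨(q, c), hq, hne⟩
  simp only at hphq hphc
  obtain ⟨hl1, hl2⟩ := p.lift_sub c q
  set Δ := ‖p.Y.pt c - p.Y.pt q‖ with hΔdef
  let w : ℕ → p.Node := fun i => if i ≤ p.a c then p.node q i else p.node c i
  have hw0 : w (p.a c) = p.node q (p.a c) := if_pos le_rfl
  have hw1 : w (p.a c + 1) = p.node c (p.a c + 1) := if_neg (by omega)
  let e1 : ℕ → ℝ := fun i => ‖p.offs (p.node q (i + 1)) - p.offs (p.node q i)‖ ^ 2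
  let e2 : ℕ → ℝ := fun i => ‖p.offs (p.node c (i + 1)) - p.offs (p.node c i)‖ ^ 2
  have hE : ∑ i ∈ range p.M, ‖p.offs (w (i + 1)) - p.offs (w i)‖ ^ 2
      ≤ ‖p.lift c - p.lift q‖ ^ 2 + p.C ^ 2 / (16 * p.R) := by
    calc ∑ i ∈ range p.M, ‖p.offs (w (i + 1)) - p.offs (w i)‖ ^ 2
        ≤ ∑ i ∈ range p.M,
            ((e1 i + e2 i) + (if i = p.a c then ‖p.lift c - p.lift q‖ ^ 2 else 0)) := by
          refine sum_le_sum fun i _ => ?_
          have n1 : 0 ≤ e1 i := sq_nonneg _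
          have n2 : 0 ≤ e2 i := sq_nonneg _
          rcases lt_trichotomy i (p.a c) with h | h | h
          · simp only [w, if_pos h.le, if_pos (show i + 1 ≤ p.a c by omega), if_neg h.ne, add_zero]
            exact le_add_of_nonneg_right n2
          · subst h
            rw [if_pos rfl, hw0, hw1, p.node_offs, p.node_offs, hphq, hphc, one_smul, one_smul]
            linarith
          · simp only [w, if_neg (by omega : ¬ i ≤ p.a c), if_neg (by omega : ¬ i + 1 ≤ p.a c),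
              if_neg h.ne', add_zero]
            exact le_add_of_nonneg_left n1
      _ ≤ ((p.C / 8) ^ 2 * (2 / p.R) + (p.C / 8) ^ 2 * (2 / p.R)) + ‖p.lift c - p.lift q‖ ^ 2 := by
          rw [sum_add_distrib, sum_add_distrib]
          refine add_le_add (add_le_add ?_ ?_) ?_
          · exact (p.sum_strand q).trans (mul_le_mul_of_nonneg_left (p.two_div_t q) (sq_nonneg _))
          · exact (p.sum_strand c).trans (mul_le_mul_of_nonneg_left (p.two_div_t c) (sq_nonneg _))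
          · rw [sum_ite_eq']; split_ifs <;> first | exact le_rfl | positivity
      _ = _ := by field_simp; ring
  have hl2' : ‖p.lift c - p.lift q‖ ≤ 11 / 10 * Δ := by linarith
  have hlC : ‖p.lift c - p.lift q‖ ≤ p.C / 4 := by
    linarith [norm_sub_le (p.lift c) (p.lift q), p.norm_lift c, p.norm_lift q]
  have hpd := ht.path w _ (by simp [w, (p.node_end q).1])
    (by simp only [w, if_neg (by omega : ¬ p.M ≤ p.a c)]; exact (p.node_end c).2)
    (fun i hi => by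
      rcases lt_trichotomy i (p.a c) with h | h | h
      · simp only [w, if_pos h.le, if_pos (show i + 1 ≤ p.a c by omega)]
        exact p.strand_cable q hi
      · subst h
        rw [hw0, hw1]
        exact ⟨.inr (.inr ⟨(q, c), hq, hne⟩), rfl, rfl⟩
      · simp only [w, if_neg (by omega : ¬ i ≤ p.a c), if_neg (by omega : ¬ i + 1 ≤ p.a c)]
        exact p.strand_cable c hi) hE
  have hR16 : p.C ^ 2 / (16 * p.R) ≤ p.C ^ 2 / 16 :=
    div_le_div_of_nonneg_left (sq_nonneg _) (by norm_num)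
      (by have : (1:ℝ) ≤ p.R := by exact_mod_cast p.hR
          linarith)
  have h := hpd.drift (p.eps_sq (by
    have := pow_le_pow_left₀ (norm_nonneg _) hlC 2
    nlinarith)) (Nat.le_succ (p.a c)) hMc
  simp only [hw0, hw1, Nat.succ_eq_add_one] at h
  push_cast at h
  have hW1 : (1 : ℝ) ≤ p.Wmax := le_trans (by
    have h4 := p.S.two_le_w p.Y c
    have e0 : (p.b c : ℝ) - p.a c = (p.S.w p.Y c : ℕ) := by simp [b, a, Sched.b]
    rw [e0]; exact_mod_cast h4.trans' (by norm_num)) (p.width c).1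
  have h2 : ‖perp u (f (p.node c (p.a c + 1)) - f (p.node q (p.a c)))‖ ^ 2 ≤ (2 * D * p.ε * Δ) ^ 2 := by
    refine h.trans ?_
    have e3 : 2 * p.μ * (p.ε ^ 2 * τ) ≤ p.ε ^ 2 * (2 * p.Wmax * τ) := by
      have := mul_le_mul_of_nonneg_right (by linarith : p.μ ≤ p.Wmax)
        (by positivity : 0 ≤ 2 * (p.ε ^ 2 * τ))
      linarith
    have e4 : 2 * D ^ 2 * (p.C ^ 2 / (16 * p.R) + 2 * p.Wmax * τ) ≤ 2 * (δ / 16) ^ 2 := by
      have : p.C ^ 2 / (16 * p.R) = 2 * (p.C ^ 2 / (32 * p.R)) := by field_simp; ring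
      rw [this]
      have : 0 ≤ 2 * D ^ 2 * (2 * p.Wmax * τ) := by positivity
      linarith
    have e5 := pow_le_pow_left₀ (norm_nonneg _) hl2' 2
    have e6 := pow_le_pow_left₀ hδ.le hΔ 2
    have e7 : (1:ℝ) ≤ D ^ 2 := one_le_pow₀ hD
    calc 2 * s ^ 2 * (((p.a c : ℝ) + 1) - p.a c)
          * (p.ε ^ 2 * (‖p.lift c - p.lift q‖ ^ 2 + p.C ^ 2 / (16 * p.R)) + 2 * p.μ * (p.ε ^ 2 * τ))
        ≤ 2 * D ^ 2 * (p.ε ^ 2 * ((11 / 10 * Δ) ^ 2 + p.C ^ 2 / (16 * p.R)) + p.ε ^ 2 * (2 * p.Wmax * τ)) := by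
          rw [add_sub_cancel_left, mul_one]
          exact mul_le_mul (mul_le_mul_of_nonneg_left (pow_le_pow_left₀ hs hsD 2) (by norm_num))
            (add_le_add (mul_le_mul_of_nonneg_left (add_le_add e5 le_rfl) (sq_nonneg _)) e3)
            (by positivity) (by positivity)
      _ = p.ε ^ 2 * (2 * D ^ 2 * (11 / 10 * Δ) ^ 2
            + 2 * D ^ 2 * (p.C ^ 2 / (16 * p.R) + 2 * p.Wmax * τ)) := by ring
      _ ≤ p.ε ^ 2 * (4 * D ^ 2 * Δ ^ 2) := by
          refine mul_le_mul_of_nonneg_left ?_ (sq_nonneg _)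
          have := mul_le_mul_of_nonneg_right e7 (sq_nonneg Δ)
          linarith [sq_nonneg Δ, sq_nonneg δ]
      _ = _ := by ring

  exact (abs_le_of_sq_le_sq' h2 (by positivity)).2

theorem rigid {k : ℕ} {D δ τ : ℝ} (hD : 1 ≤ D) (hτ : 0 ≤ τ) (hδ : 0 < δ)
    (hY : p.Y.NoEmb k (5 * D))
    (hsepY : ∀ v : p.L, ∀ u ∈ p.Y.anc v, u ≠ v → δ ≤ ‖p.Y.pt v - p.Y.pt u‖)
    (hν : 20 * p.ν ≤ δ)
    (hdr : 2 * D ^ 2 * (p.C ^ 2 / (32 * p.R) + 2 * p.Wmax * τ) ≤ (δ / 16) ^ 2)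
    (htime : D * p.ε * (p.C ^ 2 / p.μ + τ) ≤ δ / 8)
    {s : ℝ} (hs : 0 ≤ s) (hsD : s ≤ D) (f : p.Node → EuclideanSpace ℝ (Fin (k + 1)))
    (hup : ∀ e, ‖f (p.tgt e) - f (p.src e)‖ ≤ s * p.len e)
    (hlo : ∀ u v, p.le u v → ‖p.npt v - p.npt u‖ ≤ ‖f v - f u‖) :
    ‖f p.Q - f p.P‖ ≤ s * (1 - p.ε ^ 2 * τ) := by
  by_contra hcon
  rw [not_le] at hcon
  set θ := p.ε ^ 2 * τ with hθdef
  have hθ0 : 0 ≤ θ := by positivity
  have hε := p.hε
  have hμ := p.μ_pos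
  have hμ8 := p.μ_le
  have hC0 : 0 ≤ p.C := le_trans (by norm_num) p.hC1
  set d := f p.Q - f p.P with hd
  have hdpos : 0 < ‖d‖ := by
    by_contra h0
    have hz : ‖d‖ = 0 := le_antisymm (not_lt.1 h0) (norm_nonneg _)
    have hlo' := hlo p.P p.Q (p.P_le _)
    rw [← hd, hz] at hlo'
    have : (p.npt p.Q - p.npt p.P) = p.Fr.e := by
      simp only [npt, P, Q, p.axis_tm le_rfl, p.axis_tm (Nat.zero_le _), axis_offs, p.M_mul]
      simp
    rw [this, p.Fr.he] at hlo'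
    linarith
  set u := ‖d‖⁻¹ • d with hu
  have hu1 : ‖u‖ = 1 := by
    rw [hu, norm_smul, norm_inv, norm_norm, inv_mul_cancel₀ hdpos.ne']
  have htight : s * (1 - θ) ≤ ⟪d, u⟫ := by
    rw [hu, real_inner_smul_right, real_inner_self_eq_norm_sq, sq, ← mul_assoc,
      inv_mul_cancel₀ hdpos.ne', one_mul]
    exact hcon.le
  have ht : p.Tight D θ s f u := ⟨hu1, hs, hsD, hup, htight⟩
  let T : p.Node → ℝ := fun v => ⟪f v - f p.P, u⟫
  have hT : ∀ y i, i ≤ p.M → |T (p.node y i) - s * ((i : ℝ) * p.μ)| ≤ p.ε * δ / 8 :=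
    fun y i hi => p.time_bound ht hτ htime y hi
  have hdrift := p.drift_bound ht hτ hδ hdr
  -- the map one dimension lower
  have hfin : Fact (Module.finrank ℝ (EuclideanSpace ℝ (Fin (k + 1))) = k + 1) :=
    ⟨finrank_euclideanSpace_fin⟩
  have hune : u ≠ 0 := by rw [← norm_ne_zero_iff, hu1]; norm_num
  let iso := (OrthonormalBasis.fromOrthogonalSpanSingleton (𝕜 := ℝ) k hune).repr
  have hmem : ∀ x : EuclideanSpace ℝ (Fin (k + 1)), perp u x ∈ (ℝ ∙ u)ᗮ := fun x => by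
    rw [Submodule.mem_orthogonal_singleton_iff_inner_left]
    simp [perp, inner_sub_left, real_inner_smul_left, hu1]
  let g : p.L → EuclideanSpace ℝ (Fin k) := fun y =>
    (2 / p.ε) • iso ⟨perp u (f (p.node y (p.a y + 1))), hmem _⟩
  have hg : ∀ y z, ‖g y - g z‖
      = 2 / p.ε * ‖perp u (f (p.node y (p.a y + 1))) - perp u (f (p.node z (p.a z + 1)))‖ := by
    intro y z
    simp only [g, ← smul_sub, ← map_sub, norm_smul, LinearIsometryEquiv.norm_map, Real.norm_eq_abs,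
      abs_of_pos (div_pos two_pos hε)]
    rfl
  obtain ⟨c, q, hq, hne, hviol⟩ := hY g
  apply hviol
  rw [hg]
  have hnest : p.a q + 2 + p.t c ≤ p.a c ∧ p.b c + p.t c + 2 ≤ p.b q := p.S.nested p.Y hq hne
  have htc := p.times c
  have htq := p.times q
  have htc1 := p.one_le_t c
  have htq1 := p.one_le_t q
  have hMc : p.a c + 1 ≤ p.M := by simp only [M]; omega
  obtain ⟨hq0, hcIn, hphq, hphc, hq1⟩ := p.in_exec_src ⟨(q, c), hq, hne⟩
  simp only at hq0 hcIn hphq hphc hq1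
  have hΔ := hsepY c q hq hne
  obtain ⟨hl1, hl2⟩ := p.lift_sub c q
  set Δ := ‖p.Y.pt c - p.Y.pt q‖ with hΔdef
  set Nc := perp u (f (p.node c (p.a c + 1))) with hNc
  set Nq := perp u (f (p.node q (p.a q + 1))) with hNq
  have hεΔ : p.ε * δ ≤ p.ε * Δ := mul_le_mul_of_nonneg_left hΔ hε.le
  -- lower bound
  have hlow : p.ε * Δ - p.ε * δ / 4 - p.ε * δ / 16 ≤ ‖Nc - Nq‖ := by
    have h1 : p.ε * Δ ≤ ‖f (p.node c (p.a c + 1)) - f (p.node q (p.a c + 1))‖ := by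
      have hdiff : p.npt (p.node c (p.a c + 1)) - p.npt (p.node q (p.a c + 1))
          = p.ε • (p.lift c - p.lift q) := by
        simp only [npt, p.node_tm hMc, p.node_offs]
        have e1 : p.ph c (p.a c + 1) = 1 := prof_one (by omega) (by omega)
        have e2 : p.ph q (p.a c + 1) = 1 := prof_one (by omega) (by omega)
        rw [e1, e2]; module
      have h2 : ‖p.ε • (p.lift c - p.lift q)‖ = p.ε * ‖p.lift c - p.lift q‖ := by
        rw [norm_smul, Real.norm_eq_abs, abs_of_pos hε]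
      rw [← hdiff] at h2
      have h3 := mul_le_mul_of_nonneg_left hl1 hε.le
      rcases p.le_total_of (u := p.node q (p.a c + 1)) (v := p.node c (p.a c + 1))
        (Or.inr (Or.inl (p.root_centre c))) with h | h
      · have := hlo _ _ h; linarith
      · have := hlo _ _ h
        rw [norm_sub_rev (p.npt _), norm_sub_rev (f _)] at this
        linarith
    have h2 := norm_le_perp_add hu1 (f (p.node c (p.a c + 1)) - f (p.node q (p.a c + 1)))
    rw [perp_sub, ← hNc] at h2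
    have h3 : |⟪f (p.node c (p.a c + 1)) - f (p.node q (p.a c + 1)), u⟫| ≤ p.ε * δ / 4 := by
      have e1 := abs_le.1 (hT c _ hMc)
      have e2 := abs_le.1 (hT q _ hMc)
      have e3 : ⟪f (p.node c (p.a c + 1)) - f (p.node q (p.a c + 1)), u⟫
          = T (p.node c (p.a c + 1)) - T (p.node q (p.a c + 1)) := by
        simp only [T]; rw [← inner_sub_left, sub_sub_sub_cancel_right]
      rw [e3, abs_le]; constructor <;> linarith
    have h4 := hdrift q (p.a q + 1) (p.a c + 1) (by omega) (by omega) (by omega)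
    rw [perp_sub, ← hNq] at h4
    have h5 := norm_sub_le_norm_sub_add_norm_sub Nc Nq (perp u (f (p.node q (p.a c + 1))))
    rw [norm_sub_rev Nq] at h5
    linarith
  -- upper bound
  have hupp : ‖Nc - Nq‖ ≤ 2 * D * p.ε * Δ + p.ε * δ / 16 := by
    have h3 := p.exec_bound ht hD hτ hδ hν hdr hq hne hΔ
    rw [perp_sub, ← hNc] at h3
    have h4 := hdrift q (p.a q + 1) (p.a c) (by omega) (by omega) (by omega)
    rw [perp_sub, ← hNq] at h4
    have h5 := norm_sub_le_norm_sub_add_norm_sub Nc (perp u (f (p.node q (p.a c)))) Nq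
    linarith
  constructor
  · rw [div_mul_eq_mul_div, le_div_iff₀ hε]
    nlinarith
  · rw [div_mul_eq_mul_div, div_le_iff₀ hε]
    have := mul_le_mul_of_nonneg_left hεΔ (by linarith : (0:ℝ) ≤ D)
    nlinarith

end Params

end Vale.Agent.P208.Neg
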