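import Vale.Agent.P208.Neg.Copy
import Vale.Agent.P208.Neg.Rigid

/-! # P208: substituting blocks into the cables of a gadget -/

open Finset
open scoped RealInnerProductSpace

namespace Vale.Agent.P208.Neg

variable {H : Type} [NormedAddCommGroup H] [InnerProductSpace ℝ H]

namespace Params

variable (p : Params H)

/-- A forest between the points `0` and `e`, inside the cone. -/
structure Blk where
  X : Forest H
  P : X.ι
  Q : X.ι
  hP : X.pt P = 0
  hQ : X.pt Q = p.Fr.e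
  P_le : ∀ v, P ∈ X.anc v
  Q_le : ∀ v, v ≠ P → Q ∈ X.anc v
  cone : ∀ v, p.InCone (X.pt v)

namespace Blk

variable {p} (B : p.Blk)

theorem PQ : B.P ≠ B.Q := fun h => by
  have h1 := congrArg B.X.pt h
  rw [B.hP, B.hQ] at h1
  have := p.Fr.he
  rw [← h1, norm_zero] at this
  exact zero_ne_one this

theorem interior_time {z : B.X.ι} (h1 : z ≠ B.P) (h2 : z ≠ B.Q) :
    0 < ⟪B.X.pt z, p.Fr.e⟫ ∧ ⟪B.X.pt z, p.Fr.e⟫ < 1 := by
  obtain ⟨t0, t1, hp⟩ := B.cone z
  refine ⟨lt_of_le_of_ne t0 fun h => ?_, lt_of_le_of_ne t1 fun h => ?_⟩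
  · rw [← h, zero_smul, sub_zero, sub_zero, min_eq_left zero_le_one, mul_zero, norm_le_zero_iff] at hp
    exact h1 (B.X.inj z (Finset.mem_coe.2 (B.X.refl z)) (Finset.mem_coe.2 (B.P_le z)) (hp.trans B.hP.symm))
  · rw [h, one_smul, sub_self, min_eq_right zero_le_one, mul_zero, norm_le_zero_iff, sub_eq_zero] at hp
    exact h2 (B.X.inj z (Finset.mem_coe.2 (B.X.refl z)) (Finset.mem_coe.2 (B.Q_le z h1)) (hp.trans B.hQ.symm))

/-- Labels strictly inside a cable. -/
def Int : Type := {z : B.X.ι // z ≠ B.P ∧ z ≠ B.Q}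

/-- Labels of the substituted block. -/
abbrev NI : Type := p.Node ⊕ (Σ _ : p.Cab, B.Int)

noncomputable instance : Fintype B.Int := by
  classical exact inferInstanceAs (Fintype {z : B.X.ι // z ≠ B.P ∧ z ≠ B.Q})

/-- Points of the substituted block. -/
noncomputable def npt' : B.NI → H
  | .inl v => p.npt v
  | .inr ⟨e, z⟩ => p.place e (B.X.pt z.1)

/-- The order of the substituted block. -/
def rel : B.NI → B.NI → Prop
  | .inl u, .inl v => p.le u v
  | .inr _, .inl _ => False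
  | .inl u, .inr ⟨e, _⟩ => p.le u (p.deep e)
  | .inr ⟨e', w⟩, .inr ⟨e, z⟩ => e' = e ∧ w.1 ∈ B.X.anc z.1

theorem rel_refl : ∀ v, B.rel v v
  | .inl v => p.le_refl' v
  | .inr ⟨_, z⟩ => ⟨rfl, B.X.refl z.1⟩

theorem rel_trans : ∀ u v w, B.rel u v → B.rel v w → B.rel u w := by
  rintro (u | ⟨e1, z1⟩) (v | ⟨e2, z2⟩) (w | ⟨e3, z3⟩) h1 h2
  all_goals (try exact h1.elim); (try exact h2.elim)
  · exact p.le_trans' h1 h2
  · exact p.le_trans' h1 h2
  · obtain ⟨rfl, _⟩ := h2; exact h1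
  · obtain ⟨rfl, h1⟩ := h1; obtain ⟨rfl, h2⟩ := h2
    exact ⟨rfl, B.X.trans _ _ h2 h1⟩

theorem rel_antisymm : ∀ u v, B.rel u v → B.rel v u → u = v := by
  rintro (u | ⟨e1, z1⟩) (v | ⟨e2, z2⟩) h1 h2
  · exact congrArg Sum.inl (p.le_antisymm' h1 h2)
  · exact h2.elim
  · exact h1.elim
  · obtain ⟨rfl, h1⟩ := h1
    exact congrArg (fun z => Sum.inr (Sigma.mk e1 z)) (Subtype.ext (B.X.antisymm _ _ h1 h2.2))

theorem rel_chain : ∀ u v w, B.rel u w → B.rel v w → B.rel u v ∨ B.rel v u := by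
  rintro (u | ⟨e1, z1⟩) (v | ⟨e2, z2⟩) (w | ⟨e3, z3⟩) h1 h2
  all_goals (try exact h1.elim); (try exact h2.elim)
  · exact p.le_chain h1 h2
  · exact p.le_chain h1 h2
  · obtain ⟨rfl, _⟩ := h2; exact Or.inl h1
  · obtain ⟨rfl, _⟩ := h1; exact Or.inr h2
  · obtain ⟨rfl, h1⟩ := h1; obtain ⟨rfl, h2⟩ := h2
    rcases B.X.chain _ _ _ h1 h2 with h | h
    · exact Or.inl ⟨rfl, h⟩
    · exact Or.inr ⟨rfl, h⟩

theorem time_inr (e : p.Cab) (z : B.Int) (i : ℕ) :
    ⟪p.place e (B.X.pt z.1), p.Fr.e⟫ ≠ (i : ℝ) * p.μ := by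
  rw [p.place_inner]
  intro h
  have h' := mul_right_cancel₀ p.μ_pos.ne' h
  obtain ⟨t0, t1⟩ := B.interior_time z.2.1 z.2.2
  have h1 : (p.slot e : ℝ) < i := by linarith
  have h2 : (i : ℝ) < ((p.slot e + 1 : ℕ) : ℝ) := by push_cast; linarith
  have := Nat.cast_lt.1 h1
  have := Nat.cast_lt.1 h2
  omega

open Classical in
theorem rel_inj (v : B.NI) : Set.InjOn B.npt' {u | B.rel u v} := by
  rintro (a | ⟨e1, z1⟩) h1 (b | ⟨e2, z2⟩) h2 h
  · exact congrArg Sum.inl (p.npt_inj h)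
  · exact absurd ((congrArg (fun x => ⟪x, p.Fr.e⟫) h).symm.trans (p.npt_e a)) (B.time_inr e2 z2 _)
  · exact absurd ((congrArg (fun x => ⟪x, p.Fr.e⟫) h).trans (p.npt_e b)) (B.time_inr e1 z1 _)
  · rcases v with v | ⟨e, z⟩
    · exact (h1 : False).elim
    · obtain ⟨rfl, h1⟩ := h1
      obtain ⟨rfl, h2⟩ := h2
      have h' : B.X.pt z1.1 = B.X.pt z2.1 := by
        have hd := p.place_dist e2 (B.X.pt z1.1) (B.X.pt z2.1)
        simp only [npt'] at h
        rw [h, sub_self, norm_zero, eq_comm, mul_eq_zero] at hd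
        exact sub_eq_zero.1 (norm_eq_zero.1 (hd.resolve_left (p.len_pos _).ne'))
      exact congrArg (fun z => Sum.inr (Sigma.mk e2 z)) (Subtype.ext (B.X.inj _ h1 h2 h'))

open Classical in
/-- The substituted block as a forest. -/
noncomputable def nextForest : Forest H where
  ι := B.NI
  fin := inferInstance
  pt := B.npt'
  anc v := univ.filter fun u => B.rel u v
  refl v := mem_filter.2 ⟨mem_univ _, B.rel_refl v⟩
  trans u v hu w hw := mem_filter.2 ⟨mem_univ _,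
    B.rel_trans w u v (mem_filter.1 hw).2 (mem_filter.1 hu).2⟩
  antisymm u v h1 h2 := B.rel_antisymm u v (mem_filter.1 h1).2 (mem_filter.1 h2).2
  chain u v w h1 h2 := by
    rcases B.rel_chain u v w (mem_filter.1 h1).2 (mem_filter.1 h2).2 with h | h
    · exact Or.inl (mem_filter.2 ⟨mem_univ _, h⟩)
    · exact Or.inr (mem_filter.2 ⟨mem_univ _, h⟩)
  inj v := (B.rel_inj v).mono fun u hu => (mem_filter.1 (mem_coe.1 hu)).2

theorem mem_nextForest {u v : B.NI} : u ∈ B.nextForest.anc v ↔ B.rel u v := by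
  classical exact ⟨fun h => (mem_filter.1 h).2, fun h => mem_filter.2 ⟨mem_univ _, h⟩⟩

theorem axis_npt {i : ℕ} (hi : i ≤ p.M) : p.npt (p.axis i) = ((i : ℝ) * p.μ) • p.Fr.e := by
  simp [npt, p.axis_tm hi, axis_offs]

/-- The substituted block. -/
noncomputable def next : p.Blk where
  X := B.nextForest
  P := Sum.inl p.P
  Q := Sum.inl p.Q
  hP := by
    show p.npt p.P = 0
    rw [Params.P, axis_npt (Nat.zero_le _)]; simp
  hQ := by
    show p.npt p.Q = p.Fr.e
    rw [Params.Q, axis_npt le_rfl, p.M_mul, one_smul]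
  P_le := by
    rintro (v | ⟨e, z⟩)
    · exact B.mem_nextForest.2 (p.P_le v)
    · exact B.mem_nextForest.2 (p.P_le _)
  Q_le := by
    rintro (v | ⟨e, z⟩) hv
    · exact B.mem_nextForest.2 (p.Q_le fun h => hv (congrArg Sum.inl h))
    · refine B.mem_nextForest.2 (p.Q_le fun h => ?_)
      have h1 := congrArg p.tm h
      have hd := p.le_deep e
      rw [h] at hd
      have := p.le_antisymm' hd.1 (p.P_le _)
      have := p.le_antisymm' hd.2 (p.P_le _)
      have e1 := p.src_tm e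
      have e2 := p.tgt_tm e
      simp_all
  cone := by
    rintro (v | ⟨e, z⟩)
    · exact p.npt_cone v
    · exact p.place_cone e (B.cone z.1)

open Classical in
/-- A label of the block seen inside a cable. -/
noncomputable def emb (e : p.Cab) (z : B.X.ι) : B.NI :=
  if h1 : z = B.P then .inl (p.src e)
  else if h2 : z = B.Q then .inl (p.tgt e) else .inr ⟨e, ⟨z, h1, h2⟩⟩

theorem emb_P (e : p.Cab) : B.emb e B.P = .inl (p.src e) := dif_pos rfl

theorem emb_Q (e : p.Cab) : B.emb e B.Q = .inl (p.tgt e) := by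
  rw [emb, dif_neg (Ne.symm B.PQ), dif_pos rfl]

theorem emb_pt (e : p.Cab) (z : B.X.ι) : B.npt' (B.emb e z) = p.place e (B.X.pt z) := by
  unfold emb
  split_ifs with h1 h2
  · subst h1; rw [B.hP, p.place_zero]; rfl
  · subst h2; rw [B.hQ, p.place_e]; rfl
  · rfl

theorem emb_comparable (e : p.Cab) {w z : B.X.ι} (h : w ∈ B.X.anc z) :
    B.rel (B.emb e w) (B.emb e z) ∨ B.rel (B.emb e z) (B.emb e w) := by
  by_cases hzP : z = B.P
  · subst hzP
    rw [B.X.antisymm w B.P h (B.P_le w)]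
    exact Or.inl (B.rel_refl _)
  by_cases hzQ : z = B.Q
  · subst hzQ
    by_cases hwP : w = B.P
    · subst hwP; rw [B.emb_P, B.emb_Q]; exact p.cable_comparable e
    · rw [B.X.antisymm w B.Q h (B.Q_le w hwP)]; exact Or.inl (B.rel_refl _)
  left
  have hz : B.emb e z = .inr ⟨e, ⟨z, hzP, hzQ⟩⟩ := by rw [emb, dif_neg hzP, dif_neg hzQ]
  rw [hz]
  by_cases hwP : w = B.P
  · subst hwP; rw [B.emb_P]; exact (p.le_deep e).1
  by_cases hwQ : w = B.Q
  · subst hwQ; rw [B.emb_Q]; exact (p.le_deep e).2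
  rw [show B.emb e w = .inr ⟨e, ⟨w, hwP, hwQ⟩⟩ by rw [emb, dif_neg hwP, dif_neg hwQ]]
  exact ⟨rfl, h⟩

/-- Constraints on ancestor pairs force a bound on the stretch of the base. -/
def Stretch (k : ℕ) (D r : ℝ) : Prop :=
  ∀ f : B.X.ι → EuclideanSpace ℝ (Fin (k + 1)),
    (∀ v, ∀ u ∈ B.X.anc v, ‖B.X.pt v - B.X.pt u‖ ≤ ‖f v - f u‖ ∧
      ‖f v - f u‖ ≤ D * ‖B.X.pt v - B.X.pt u‖) → ‖f B.Q - f B.P‖ ≤ r

theorem next_stretch {k : ℕ} {D δ τ r : ℝ} (hD : 1 ≤ D) (hτ : 0 ≤ τ) (hδ : 0 < δ)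
    (hY : p.Y.NoEmb k (5 * D))
    (hsepY : ∀ v : p.L, ∀ u ∈ p.Y.anc v, u ≠ v → δ ≤ ‖p.Y.pt v - p.Y.pt u‖)
    (hν : 20 * p.ν ≤ δ)
    (hdr : 2 * D ^ 2 * (p.C ^ 2 / (32 * p.R) + 2 * p.Wmax * τ) ≤ (δ / 16) ^ 2)
    (htime : D * p.ε * (p.C ^ 2 / p.μ + τ) ≤ δ / 8)
    (hr0 : 0 ≤ r) (hrD : r ≤ D) (hB : B.Stretch k D r) :
    B.next.Stretch k D (r * (1 - p.ε ^ 2 * τ)) := by
  intro f hf
  have hf' : ∀ u v : B.NI, B.rel u v ∨ B.rel v u →
      ‖B.npt' v - B.npt' u‖ ≤ ‖f v - f u‖ ∧ ‖f v - f u‖ ≤ D * ‖B.npt' v - B.npt' u‖ := by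
    rintro u v (h | h)
    · exact hf v u (B.mem_nextForest.2 h)
    · have := hf u v (B.mem_nextForest.2 h)
      rw [norm_sub_rev (B.npt' v), norm_sub_rev (f v)]
      exact this
  refine p.rigid hD hτ hδ hY hsepY hν hdr htime hr0 hrD (fun v => f (.inl v)) (fun e => ?_)
    (fun u v h => (hf' (.inl u) (.inl v) (Or.inl h)).1)
  have hl := p.len_pos e
  have key := hB (fun z => (p.len e)⁻¹ • f (B.emb e z)) fun v u hu => by
    have h := hf' (B.emb e u) (B.emb e v) (B.emb_comparable e hu)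
    rw [B.emb_pt, B.emb_pt, p.place_dist] at h
    rw [← smul_sub, norm_smul, norm_inv, Real.norm_eq_abs, abs_of_pos hl, inv_mul_eq_div,
      le_div_iff₀ hl, div_le_iff₀ hl]
    constructor <;> linarith [h.1, h.2]
  rw [← smul_sub, norm_smul, norm_inv, Real.norm_eq_abs, abs_of_pos hl, inv_mul_eq_div,
    div_le_iff₀ hl, B.emb_P, B.emb_Q] at key
  exact key

theorem noEmb {k : ℕ} {D r : ℝ} (hB : B.Stretch k D r) (hr : r < 1) :
    B.X.NoEmb (k + 1) D := by
  intro g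
  by_contra hc
  push_neg at hc
  have h : ∀ v, ∀ u ∈ B.X.anc v, ‖B.X.pt v - B.X.pt u‖ ≤ ‖g v - g u‖ ∧
      ‖g v - g u‖ ≤ D * ‖B.X.pt v - B.X.pt u‖ := by
    intro v u hu
    by_cases huv : u = v
    · subst huv; simp
    · exact hc v u hu huv
  have h1 := (h B.Q B.P (B.P_le _)).1
  rw [B.hP, B.hQ, sub_zero, p.Fr.he] at h1
  linarith [hB g h]

end Blk

/-- The block with two points. -/
noncomputable def blk0 : p.Blk where
  X :=
    { ι := Bool
      fin := inferInstance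
      pt := fun b => if b then p.Fr.e else 0
      anc := fun b => if b then {false, true} else {false}
      refl := fun v => by cases v <;> simp
      trans := fun u v => by cases u <;> cases v <;> simp
      antisymm := fun u v => by cases u <;> cases v <;> simp
      chain := fun u v w => by cases u <;> cases v <;> cases w <;> simp
      inj := fun v => fun a _ b _ h => by
        have he : p.Fr.e ≠ 0 := fun h0 => by
          have := p.Fr.he; rw [h0, norm_zero] at this; exact zero_ne_one this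
        cases a <;> cases b <;> simp_all }
  P := false
  Q := true
  hP := rfl
  hQ := rfl
  P_le := fun v => by cases v <;> simp
  Q_le := fun v => by cases v <;> simp
  cone := fun v => by cases v <;> simp [InCone, p.Fr.ee, p.Fr.he]

theorem blk0_stretch (k : ℕ) (D : ℝ) : p.blk0.Stretch k D D := by
  intro f hf
  have h := (hf true false (show false ∈ ({false, true} : Finset Bool) from Finset.mem_insert_self _ _)).2
  simpa [blk0, p.Fr.he] using h

end Params

end Vale.Agent.P208.Neg
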