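import Vale.Agent.P208.Neg.Frame

/-! # P208: a nested time schedule for a forest -/

open Finset

namespace Vale.Agent.P208.Neg

/-- Length of the static period at height `h`, for `K` labels and transfer ratio `R`. -/
def wid (K R : ℕ) : ℕ → ℕ
  | 0 => 4
  | h + 1 => K * ((2 * R + 1) * wid K R h + 4)

/-- Slot length at height `h`. -/
def slotLen (K R h : ℕ) : ℕ := (2 * R + 1) * wid K R h + 4

theorem wid_succ (K R h : ℕ) : wid K R (h + 1) = K * slotLen K R h := rfl

theorem four_le_wid {K R : ℕ} (hK : 1 ≤ K) : ∀ h, 4 ≤ wid K R h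
  | 0 => le_rfl
  | h + 1 => by
    rw [wid_succ]
    calc 4 = 1 * 4 := rfl
      _ ≤ K * slotLen K R h := Nat.mul_le_mul hK (Nat.le_add_left _ _)

theorem wid_mono {K R : ℕ} (hK : 1 ≤ K) {h h' : ℕ} (hh : h ≤ h') : wid K R h ≤ wid K R h' := by
  induction hh with
  | refl => exact le_rfl
  | @step n _ ih =>
    refine ih.trans ?_
    rw [wid_succ, slotLen]
    calc wid K R n = 1 * (1 * wid K R n + 0) := by ring
      _ ≤ K * ((2 * R + 1) * wid K R n + 4) :=
        Nat.mul_le_mul hK (Nat.add_le_add (Nat.mul_le_mul_right _ (by omega)) (Nat.zero_le _))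

variable {H : Type} [NormedAddCommGroup H] [InnerProductSpace ℝ H] (Y : Forest H)

/-- Data fixing the schedule. -/
structure Sched where
  R : ℕ
  base : ℕ
  hR : 1 ≤ R

variable {Y}

namespace Sched

variable (S : Sched) (Y)

noncomputable def K : ℕ := Fintype.card Y.ι

noncomputable def idx (v : Y.ι) : ℕ := (Fintype.equivFin Y.ι v : ℕ)

noncomputable def ht (v : Y.ι) : ℕ := Sched.K Y - (Y.anc v).card

noncomputable def tr (v : Y.ι) : ℕ := S.R * wid (Sched.K Y) S.R (Sched.ht Y v)

noncomputable def w (v : Y.ι) : ℕ := wid (Sched.K Y) S.R (Sched.ht Y v)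

noncomputable def a (v : Y.ι) : ℕ :=
  S.base + ∑ q ∈ Y.anc v,
    (Sched.idx Y q * slotLen (Sched.K Y) S.R (Sched.ht Y q) + S.tr Y q + 2)

noncomputable def b (v : Y.ι) : ℕ := S.a Y v + S.w Y v

theorem idx_lt (v : Y.ι) : Sched.idx Y v < Sched.K Y := (Fintype.equivFin Y.ι v).isLt

theorem idx_inj : Function.Injective (Sched.idx Y) := fun u v h =>
  (Fintype.equivFin Y.ι).injective (Fin.ext h)

theorem one_le_K (v : Y.ι) : 1 ≤ Sched.K Y := (Sched.idx_lt Y v).trans_le' (Nat.zero_le _)

theorem card_anc_le (v : Y.ι) : (Y.anc v).card ≤ Sched.K Y := Finset.card_le_univ _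

theorem card_lt {u v : Y.ι} (hu : u ∈ Y.anc v) (hne : u ≠ v) :
    (Y.anc u).card < (Y.anc v).card := by
  refine card_lt_card ((Finset.ssubset_iff_of_subset (Y.trans u v hu)).2 ⟨v, Y.refl v, fun h => ?_⟩)
  exact hne (Y.antisymm u v hu h)

open Classical in
theorem exists_parent {v : Y.ι} (h : 1 < (Y.anc v).card) :
    ∃ p ∈ Y.anc v, p ≠ v ∧ Y.anc p = (Y.anc v).erase v := by
  have hne : ((Y.anc v).erase v).Nonempty := by
    rw [← card_pos, card_erase_of_mem (Y.refl v)]; omega
  obtain ⟨p, hp, hmax⟩ := exists_max_image ((Y.anc v).erase v) (fun q => (Y.anc q).card) hne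
  have hp' := mem_erase.1 hp
  refine ⟨p, hp'.2, hp'.1, Subset.antisymm (fun q hq => ?_) fun q hq => ?_⟩
  · refine mem_erase.2 ⟨fun h => ?_, Y.trans p v hp'.2 hq⟩
    subst h; exact hp'.1 (Y.antisymm p q hp'.2 hq)
  · rcases Y.chain q p v (mem_erase.1 hq).2 hp'.2 with h | h
    · exact h
    · have h1 := eq_of_subset_of_card_le (Y.trans p q h) (hmax q hq)
      rw [h1]; exact Y.refl q

theorem eq_singleton {v : Y.ι} (h : (Y.anc v).card ≤ 1) : Y.anc v = {v} :=
  (eq_of_subset_of_card_le (singleton_subset_iff.2 (Y.refl v)) (by simpa using h)).symm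

/-- Position of `v` relative to its parent. -/
theorem a_child {p v : Y.ι} (hp : p ∈ Y.anc v) (hne : p ≠ v) [DecidableEq Y.ι]
    (he : Y.anc p = (Y.anc v).erase v) :
    S.a Y v = S.a Y p + Sched.idx Y v * slotLen (Sched.K Y) S.R (Sched.ht Y v) + S.tr Y v + 2
      ∧ Sched.ht Y p = Sched.ht Y v + 1 := by
  constructor
  · simp only [Sched.a, he]
    rw [← Finset.add_sum_erase _ _ (Y.refl v)]
    ring
  · have h1 := card_erase_of_mem (Y.refl v)
    rw [← he] at h1
    have h2 := Sched.card_anc_le Y v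
    have h3 := Sched.card_lt Y hp hne
    unfold Sched.ht
    omega

theorem tr_le_a (v : Y.ι) : S.base + S.tr Y v + 2 ≤ S.a Y v := by
  simp only [Sched.a]
  have := single_le_sum (f := fun q => Sched.idx Y q * slotLen (Sched.K Y) S.R (Sched.ht Y q)
    + S.tr Y q + 2) (fun _ _ => Nat.zero_le _) (Y.refl v)
  omega

/-- The window of `v` sits inside the static period of its parent. -/
theorem window_le {p v : Y.ι} (hp : p ∈ Y.anc v) (hne : p ≠ v) [DecidableEq Y.ι]
    (he : Y.anc p = (Y.anc v).erase v) :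
    S.a Y p + 2 + S.tr Y v ≤ S.a Y v ∧ S.b Y v + S.tr Y v + 2 ≤ S.b Y p := by
  obtain ⟨h1, h2⟩ := S.a_child Y hp hne he
  refine ⟨by omega, ?_⟩
  simp only [Sched.b, Sched.w, h2, wid_succ]
  have h3 : (Sched.idx Y v + 1) * slotLen (Sched.K Y) S.R (Sched.ht Y v)
      ≤ Sched.K Y * slotLen (Sched.K Y) S.R (Sched.ht Y v) :=
    Nat.mul_le_mul_right _ (Sched.idx_lt Y v)
  simp only [slotLen, Sched.tr] at *
  linarith

theorem nested {u v : Y.ι} (hu : u ∈ Y.anc v) (hne : u ≠ v) :
    S.a Y u + 2 + S.tr Y v ≤ S.a Y v ∧ S.b Y v + S.tr Y v + 2 ≤ S.b Y u := by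
  classical
  induction hn : (Y.anc v).card using Nat.strong_induction_on generalizing v with
  | _ n ih =>
    have hc : 1 < (Y.anc v).card := one_lt_card.2 ⟨u, hu, v, Y.refl v, hne⟩
    obtain ⟨p, hp, hpv, he⟩ := Sched.exists_parent Y hc
    have hw := S.window_le Y hp hpv he
    have hup : u ∈ Y.anc p := by rw [he]; exact mem_erase.2 ⟨hne, hu⟩
    by_cases hup' : u = p
    · subst hup'; exact hw
    · obtain ⟨h1, h2⟩ := ih _ (hn ▸ Sched.card_lt Y hp hpv) hup hup' rfl
      have h3 : S.a Y p ≤ S.b Y p := Nat.le_add_right _ _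
      omega

theorem disjoint_of_card {n : ℕ} : ∀ {u v : Y.ι}, (Y.anc u).card + (Y.anc v).card = n →
    (Y.anc u).card ≤ (Y.anc v).card → u ∉ Y.anc v → v ∉ Y.anc u →
    S.b Y u + S.tr Y u < S.a Y v - S.tr Y v ∨ S.b Y v + S.tr Y v < S.a Y u - S.tr Y u := by
  classical
  induction n using Nat.strong_induction_on with
  | _ n ih =>
    intro u v hn hle huv hvu
    have hu1 : 1 ≤ (Y.anc u).card := card_pos.2 ⟨u, Y.refl u⟩
    have hv1 : 1 ≤ (Y.anc v).card := card_pos.2 ⟨v, Y.refl v⟩
    have hua := S.tr_le_a Y u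
    have hva := S.tr_le_a Y v
    -- equal offsets within the same parent are separated by whole slots
    have hsib : ∀ A : ℕ, Sched.ht Y u = Sched.ht Y v →
        S.a Y u = A + Sched.idx Y u * slotLen (Sched.K Y) S.R (Sched.ht Y u) + S.tr Y u + 2 →
        S.a Y v = A + Sched.idx Y v * slotLen (Sched.K Y) S.R (Sched.ht Y v) + S.tr Y v + 2 →
        S.b Y u + S.tr Y u < S.a Y v - S.tr Y v ∨ S.b Y v + S.tr Y v < S.a Y u - S.tr Y u := by
      intro A hh h1 h2
      have hne : Sched.idx Y u ≠ Sched.idx Y v := fun h => by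
        have := Sched.idx_inj Y h; subst this; exact huv (Y.refl u)
      simp only [Sched.b, Sched.w, Sched.tr, hh] at *
      rcases Nat.lt_or_gt_of_ne hne with h | h
      · left
        have := Nat.mul_le_mul_right (slotLen (Sched.K Y) S.R (Sched.ht Y v)) h
        simp only [slotLen, Nat.succ_eq_add_one] at *
        refine lt_tsub_iff_right.2 ?_
        linarith
      · right
        have := Nat.mul_le_mul_right (slotLen (Sched.K Y) S.R (Sched.ht Y v)) h
        simp only [slotLen, Nat.succ_eq_add_one] at *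
        refine lt_tsub_iff_right.2 ?_
        linarith
    by_cases hv : (Y.anc v).card ≤ 1
    · have e1 := Sched.eq_singleton Y (by omega : (Y.anc u).card ≤ 1)
      have e2 := Sched.eq_singleton Y hv
      refine hsib S.base ?_ ?_ ?_
      · simp [Sched.ht, e1, e2]
      · simp only [Sched.a, e1, sum_singleton]; ring
      · simp only [Sched.a, e2, sum_singleton]; ring
    · obtain ⟨p, hp, hpv, hep⟩ := Sched.exists_parent Y (by omega : 1 < (Y.anc v).card)
      have hcp : (Y.anc p).card + 1 = (Y.anc v).card := by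
        rw [hep, card_erase_of_mem (Y.refl v)]; omega
      have hwv := S.window_le Y hp hpv hep
      by_cases hlt : (Y.anc u).card < (Y.anc v).card
      · have h1 : u ∉ Y.anc p := fun h => huv (Y.trans p v hp h)
        have h2 : p ∉ Y.anc u := fun h => by
          have h' := eq_of_subset_of_card_le (Y.trans p u h) (by omega)
          exact h1 (by rw [h']; exact Y.refl u)
        rcases ih _ (by omega) rfl (by omega) h1 h2 with h | h
        · left; omega
        · right; omega
      · obtain ⟨p', hp', hp'u, hep'⟩ := Sched.exists_parent Y (by omega : 1 < (Y.anc u).card)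
        have hcp' : (Y.anc p').card + 1 = (Y.anc u).card := by
          rw [hep', card_erase_of_mem (Y.refl u)]; omega
        have hwu := S.window_le Y hp' hp'u hep'
        by_cases hpp : p' = p
        · subst hpp
          obtain ⟨h1, h1'⟩ := S.a_child Y hp hpv hep
          obtain ⟨h2, h2'⟩ := S.a_child Y hp' hp'u hep'
          exact hsib (S.a Y p') (by omega) h2 h1
        · have h1 : p' ∉ Y.anc p := fun h => by
            have h' := eq_of_subset_of_card_le (Y.trans p' p h) (by omega)
            exact hpp (Y.antisymm p' p h (by rw [h']; exact Y.refl p))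
          have h2 : p ∉ Y.anc p' := fun h => by
            have h' := eq_of_subset_of_card_le (Y.trans p p' h) (by omega)
            exact hpp (Y.antisymm p p' h (by rw [h']; exact Y.refl p')).symm
          rcases ih _ (by omega) rfl (by omega) h1 h2 with h | h
          · left; omega
          · right; omega

/-- Windows of incomparable labels are disjoint. -/
theorem disjoint {u v : Y.ι} (huv : u ∉ Y.anc v) (hvu : v ∉ Y.anc u) :
    S.b Y u + S.tr Y u < S.a Y v - S.tr Y v ∨ S.b Y v + S.tr Y v < S.a Y u - S.tr Y u := by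
  rcases le_total (Y.anc u).card (Y.anc v).card with h | h
  · exact S.disjoint_of_card Y rfl h huv hvu
  · exact (S.disjoint_of_card Y rfl h hvu huv).symm

theorem hi_le (v : Y.ι) : S.b Y v + S.tr Y v + 2 ≤ S.base + wid (Sched.K Y) S.R (Sched.K Y) := by
  classical
  induction hn : (Y.anc v).card using Nat.strong_induction_on generalizing v with
  | _ n ih =>
    by_cases hv : (Y.anc v).card ≤ 1
    · have e2 := Sched.eq_singleton Y hv
      have hK := Sched.one_le_K Y v
      have hh : Sched.K Y = Sched.ht Y v + 1 := by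
        simp only [Sched.ht, e2, card_singleton]; omega
      have h3 : (Sched.idx Y v + 1) * slotLen (Sched.K Y) S.R (Sched.ht Y v)
          ≤ Sched.K Y * slotLen (Sched.K Y) S.R (Sched.ht Y v) :=
        Nat.mul_le_mul_right _ (Sched.idx_lt Y v)
      conv_rhs => arg 2; arg 3; rw [hh]
      rw [wid_succ]
      simp only [Sched.b, Sched.a, e2, sum_singleton, Sched.w, Sched.tr, slotLen] at *
      linarith
    · obtain ⟨p, hp, hpv, he⟩ := Sched.exists_parent Y (by omega : 1 < (Y.anc v).card)
      have := (S.window_le Y hp hpv he).2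
      have := ih _ (hn ▸ Sched.card_lt Y hp hpv) p rfl
      omega

theorem a_inj {u v : Y.ι} (h : S.a Y u = S.a Y v) : u = v := by
  by_contra hne
  by_cases h1 : u ∈ Y.anc v
  · have := (S.nested Y h1 hne).1; omega
  by_cases h2 : v ∈ Y.anc u
  · have := (S.nested Y h2 (Ne.symm hne)).1; omega
  rcases S.disjoint Y h1 h2 with h3 | h3 <;> simp only [Sched.b] at h3 <;> omega

theorem two_le_w (v : Y.ι) : 4 ≤ S.w Y v := four_le_wid (Sched.one_le_K Y v) _

theorem w_le (v : Y.ι) : S.w Y v ≤ wid (Sched.K Y) S.R (Sched.K Y) :=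
  wid_mono (Sched.one_le_K Y v) (Nat.sub_le _ _)

theorem tr_eq (v : Y.ι) : S.tr Y v = S.R * S.w Y v := rfl

theorem tr_pos (v : Y.ι) : 1 ≤ S.tr Y v :=
  Nat.mul_pos S.hR ((S.two_le_w Y v).trans_lt' (by omega))

end Sched

end Vale.Agent.P208.Neg
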